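import Crest.Agent.N255.Le.Abs
import Crest.Agent.N255.Tp.Phi
/-!
# Row 255 (helper71): located normal forms and parametrices for compactly supported cochains
-/
namespace Crest.Agent.N255.Le
open Submodule Set Tp Module

section lin
variable {k M : Type*} [Field k] [AddCommGroup M] [Module k M] {J : Type*} [Fintype J]

/-- projection killing the `v j` -/
noncomputable def Pd (D : J → Dual k M) (v : J → M) : M →ₗ[k] M :=
  LinearMap.id - ∑ j, (D j).smulRight (v j)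

variable {D : J → Dual k M} {v : J → M} {A : Submodule k M}

theorem Pd_apply (f : M) : Pd D v f = f - ∑ j, D j f • v j := by simp [Pd]

theorem sub_Pd (f : M) : f - Pd D v f = ∑ j, D j f • v j := by simp [Pd_apply]

theorem Pd_self [DecidableEq J] (h : ∀ j j', D j (v j') = if j = j' then 1 else 0) (j : J) :
    Pd D v (v j) = 0 := by simp [Pd_apply, h]

theorem kp_Pd (h : ∀ j, (∀ f ∈ A, D j f = 0) ∨ v j ∈ A) : Kp (Pd D v) A := fun f hf => by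
  rw [Pd_apply]
  exact A.sub_mem hf (A.sum_mem fun j _ => (h j).elim (fun h => by simp [h f hf]) (A.smul_mem _))

theorem sub_Pd_mem (h : ∀ j, v j ∈ A) (f : M) : f - Pd D v f ∈ A :=
  sub_Pd (D := D) f ▸ A.sum_mem fun j _ => A.smul_mem _ (h j)

/-- located dual functionals from located independence -/
theorem exists_D [DecidableEq J] (A : J → Submodule k M)
    (h : ∀ j (x : J → k), ∑ j', x j' • v j' ∈ A j → x j = 0) :
    ∃ D : J → Dual k M, (∀ j j', D j (v j') = if j = j' then 1 else 0) ∧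
      ∀ j, ∀ f ∈ A j, D j f = 0 := by
  have : ∀ j, ∃ l : Dual k (M ⧸ A j), ((A j).mkQ ∘ₗ Fintype.linearCombination k v).dualMap l =
      LinearMap.proj j := fun j => by
    rw [← LinearMap.mem_range, LinearMap.range_dualMap_eq_dualAnnihilator_ker,
      mem_dualAnnihilator]
    intro x hx
    exact h j x (by rw [← Fintype.linearCombination_apply]; exact (Quotient.mk_eq_zero _).1 hx)
  choose l hl using this
  refine ⟨fun j => l j ∘ₗ (A j).mkQ, fun j j' => ?_, fun j f hf => by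
    simp [(Quotient.mk_eq_zero _).2 hf]⟩
  have := LinearMap.congr_fun (hl j) (Pi.single j' 1)
  simpa [Fintype.linearCombination_apply_single, Pi.single_apply] using this

end lin

variable {k : Type} [Field k] {X : Type} [TopologicalSpace X] {n : ℕ}

/-- compactly supported cochains -/
abbrev CC (k X : Type) [Field k] [TopologicalSpace X] (n : ℕ) := Cc k (univ : Set X) k n

/-- vanishing on the `cv`-small simplices of a zone -/
abbrev vo (k : Type) [Field k] (cv : Set (Set X)) (U : Set X) (n : ℕ) :=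
  ((On U).inf (Sm cv)).van k k n

/-- vanishing on the `cv`-small simplices of a family of zones -/
abbrev vs (k : Type) [Field k] (cv 𝒰 : Set (Set X)) (n : ℕ) := ((Sm 𝒰).inf (Sm cv)).van k k n

variable {cv : Set (Set X)}

theorem vs_eq (𝒰 : Set (Set X)) : vs k cv 𝒰 n = ⨅ U ∈ 𝒰, vo k cv U n := by
  ext φ
  simp only [mem_iInf]
  exact ⟨fun h U hU σ hσ => h σ ⟨⟨U, hU, hσ.1⟩, hσ.2⟩,
    fun h σ ⟨⟨U, hU, hσ⟩, h'⟩ => h U hU σ ⟨hσ, h'⟩⟩

theorem vs_le {𝒰 : Set (Set X)} {U V : Set X} (hU : U ∈ 𝒰) (h : V ⊆ U) :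
    vs k cv 𝒰 n ≤ vo k cv V n := fun _ hφ σ hσ => hφ σ ⟨⟨U, hU, hσ.1.trans h⟩, hσ.2⟩

theorem vo_le {𝒰 : Set (Set X)} {V : Set X} (h : ⋃₀ 𝒰 ⊆ V) : vo k cv V n ≤ vs k cv 𝒰 n :=
  fun _ hφ σ ⟨⟨_, hU, hσ⟩, h'⟩ => hφ σ ⟨hσ.trans ((subset_sUnion_of_mem hU).trans h), h'⟩

theorem vs_mono {𝒰 𝒱 : Set (Set X)} (h : 𝒱 ⊆ 𝒰) : vs k cv 𝒰 n ≤ vs k cv 𝒱 n :=
  fun _ hφ σ ⟨⟨U, hU, hσ⟩, h'⟩ => hφ σ ⟨⟨U, h hU, hσ⟩, h'⟩

theorem vo_mono {U V : Set X} (h : U ⊆ V) : vo k cv V n ≤ vo k cv U n :=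
  fun _ hφ σ hσ => hφ σ ⟨hσ.1.trans h, hσ.2⟩

theorem on_le {U V : Set X} (h : U ⊆ V) : (On V).van k k n ≤ vo k cv U n :=
  fun _ hφ σ hσ => hφ σ (hσ.1.trans h)

theorem sm_le {U : Set X} : (Sm cv).van k k n ≤ vo k cv U n := fun _ hφ σ hσ => hφ σ hσ.2

theorem sm_rf (𝒰 : Set (Set X)) : Sm (image2 (· ∩ ·) 𝒰 cv) = (Sm 𝒰).inf (Sm cv) := by
  unfold Sb.inf Sm; congr; funext n; ext σ
  exact ⟨fun ⟨_, ⟨U, hU, V, hV, rfl⟩, h⟩ => ⟨⟨U, hU, h.trans inter_subset_left⟩,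
    V, hV, h.trans inter_subset_right⟩,
    fun ⟨⟨U, hU, h⟩, V, hV, h'⟩ => ⟨_, ⟨U, hU, V, hV, rfl⟩, subset_inter h h'⟩⟩

theorem res_van {U V : Set X} (h : Disjoint U V) (φ : Co k n X) :
    (On U).res φ ∈ (On V).van k k n :=
  fun σ hσ => Sb.res_of_notMem φ fun h' =>
    (range_nonempty σ).ne_empty (eq_empty_of_subset_empty
      ((subset_inter h' hσ).trans h.le_bot))

theorem glue {ι : Type*} [Finite ι] {Z : ι → Set X} (hZ : Pairwise fun i j => Disjoint (Z i) (Z j))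
    {c : ι → Co k n X} (hc : ∀ i, c i ∈ CC k X n) :
    ∃ c0 ∈ CC k X n, ∀ i, c0 - c i ∈ (On (Z i)).van k k n := by
  classical
  have := Fintype.ofFinite ι
  refine ⟨∑ i, (On (Z i)).res (c i), sum_mem fun i _ => res_Cc _ (hc i), fun i => ?_⟩
  rw [← Finset.add_sum_erase _ _ (Finset.mem_univ i), add_sub_right_comm]
  exact add_mem (by simpa using neg_mem (Sb.sub_res (k := k) (P := On (Z i)) (c i)))
    (sum_mem fun j hj => res_van (hZ (Finset.ne_of_mem_erase hj)) _)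

/-- cutting a coboundary along finitely many overlaps `L s ∩ R s` on which it vanishes -/
theorem cut_fin (hc : Hc0 k X k (n + 1)) {δ : Type*} (S : Finset δ) {L R : δ → Set X}
    (hL : ∀ s ∈ S, IsOpen (L s)) (hR : ∀ s ∈ S, IsOpen (R s)) (hu : ∀ s ∈ S, L s ∪ R s = univ)
    (hLR : ∀ s ∈ S, ∀ t ∈ S, s ≠ t → L s ⊆ R t) {c : Co k n X} (h1 : c ∈ CC k X n)
    (h2 : ∀ s ∈ S, cob k c ∈ (On (L s ∩ R s)).van k k (n + 1)) :
    ∃ c' ∈ CC k X n, (∀ s ∈ S, cob k c' ∈ (On (L s)).van k k (n + 1)) ∧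
      cob k c - cob k c' ∈ (On (⋂ s ∈ S, R s)).van k k (n + 1) := by
  classical
  induction S using Finset.induction_on with
  | empty => exact ⟨c, h1, by simp, by simp⟩
  | insert t S ht ih =>
    have m : ∀ {s}, s ∈ S → s ∈ insert t S := Finset.mem_insert_of_mem
    have m0 := Finset.mem_insert_self t S
    have ne : ∀ {s}, s ∈ S → s ≠ t := fun hs e => ht (e ▸ hs)
    obtain ⟨c', q1, q2, q3⟩ := ih (fun s hs => hL s (m hs)) (fun s hs => hR s (m hs))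
      (fun s hs => hu s (m hs)) (fun s hs s' hs' => hLR s (m hs) s' (m hs'))
      fun s hs => h2 s (m hs)
    obtain ⟨b, hb, hb'⟩ := mv_surj (hL t m0) (hR t m0) (hu t m0) hc (φ := c') ⟨q1, by
      have := sub_mem (h2 t m0) (van_mono (subset_iInter₂ fun s hs =>
        inter_subset_left.trans (hLR t m0 s (m hs) (ne hs).symm)) q3)
      rwa [sub_sub_cancel] at this⟩
    refine ⟨c' - b, hb'.1, fun s hs => ?_, ?_⟩
    · rcases Finset.mem_insert.1 hs with rfl | hs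
      · exact hb'.2
      · rw [map_sub]; exact sub_mem (q2 s hs) (van_mono (hLR s (m hs) t m0 (ne hs)) hb.2)
    · rw [map_sub, ← sub_add, Finset.set_biInter_insert]
      exact add_mem (van_mono inter_subset_right q3) (van_mono inter_subset_left hb.2)

variable {P : Co k 2 X →ₗ[k] Co k 2 X}

/-- open covers -/
def Ov (cv : Set (Set X)) : Prop := (∀ U ∈ cv, IsOpen U) ∧ ⋃₀ cv = univ

/-- the zone `U` can be cut out along the overlaps it contains, away from the sets in `F` -/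
def Ct (k : Type) [Field k] (cv : Set (Set X)) {δ : Type*} (U : Set X) (D : δ → Set X)
    (F : Set (Set X)) : Prop :=
  ∀ c ∈ CC k X 1, (∀ s, D s ⊆ U → cob k c ∈ vo k cv (D s) 2) →
    ∃ c' ∈ CC k X 1, cob k c' ∈ vs k cv F 2 ∧ cob k c - cob k c' ∈ vo k cv U 2

theorem ct_of (o : Ov cv) (hc : Hc0 k X k 2) {δ : Type*} {U : Set X} {D : δ → Set X} {F : Set (Set X)}
    (S : Finset δ) (L R : δ → Set X)
    (hL : ∀ s ∈ S, IsOpen (L s)) (hR : ∀ s ∈ S, IsOpen (R s)) (hu : ∀ s ∈ S, L s ∪ R s = univ)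
    (hLR : ∀ s ∈ S, ∀ t ∈ S, s ≠ t → L s ⊆ R t) (hD : ∀ s ∈ S, L s ∩ R s ⊆ D s ∧ D s ⊆ U)
    (hU : ∀ s ∈ S, U ⊆ R s) (hF : ∀ V ∈ F, ∃ s ∈ S, V ⊆ L s) : Ct k cv U D F := fun c h1 h2 => by
  obtain ⟨c', q1, q2, q3⟩ := cut_fin hc S hL hR hu hLR (exs_Cc (𝒰 := cv) h1) fun s hs =>
    van_mono (hD s hs).1 (exs_Z o.1 (o.2 ▸ subset_univ _) (h2 s (hD s hs).2))
  refine ⟨c', q1, fun σ ⟨⟨V, hV, hσ⟩, _⟩ => ?_, ?_⟩
  · obtain ⟨s, hs, h⟩ := hF V hV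
    exact q2 s hs σ (hσ.trans h)
  · have := sub_mem (on_le (cv := cv) (subset_iInter₂ hU) q3)
      (sm_le (Sb.cob_mem (exs_sub (k := k) (𝒰 := cv) (θ := c))))
    rwa [map_sub, sub_sub_sub_cancel_left] at this

theorem kp_of_sub {A : Submodule k (Co k 2 X)} (h : ∀ f, f - P f ∈ A) : Kp P A :=
  fun f hf => by simpa using A.sub_mem hf (h f)

/-- Lemma E for zones `O` with pairwise disjoint overlaps `D`. -/
theorem lemE_phi' {ζ δ : Type*} [Finite ζ] [Finite δ] {O : ζ → Set X} {D : δ → Set X}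
    (hD : Pairwise fun s t => Disjoint (D s) (D t))
    (hct : ∀ z, Ct k cv (O z) D (O '' {z}ᶜ ∪ range D)) (hO : ∀ z, Kp P (vo k cv (O z) 2))
    (hP : ∀ s f, f - P f ∈ vo k cv (D s) 2) :
    ∃ E, (∀ f, P f ∈ E ⊔ (CC k X 1).map (P ∘ₗ cob k)) ∧
      (∀ z, St (cob k) (CC k X 1) P E (vo k cv (O z) 2)) ∧
      (∀ s, St (cob k) (CC k X 1) P E (vo k cv (D s) 2)) ∧
      (⨅ s, vo k cv (D s) 2) ⊓ ⨅ z, vo k cv (O z) 2 ≤ E := by
  have kD := fun s => kp_of_sub (hP s)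
  obtain ⟨E1, -, a2, a3, a4⟩ := lemE (E0 := ⊤) (B := ⊤) (R := (CC k X 1).map (P ∘ₗ cob k))
    (A := fun s => vo k cv (D s) 2) le_rfl (by
      rintro s _ ⟨c, hc, rfl⟩ -
      refine ⟨_, ⟨_, res_Cc (On (D s)) hc, rfl⟩, trivial, fun t ht =>
        kD t _ (on_le subset_rfl (Sb.cob_mem (res_van (hD ht.symm) c))), ?_⟩
      rw [← map_sub]
      exact kD s _ (on_le subset_rfl (Sb.cob_mem (Sb.sub_res c))))
  obtain ⟨E, b1, b2, b3, b4⟩ := lemE (E0 := E1) (B := ⨅ s, vo k cv (D s) 2)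
    (R := (CC k X 1).map (P ∘ₗ cob k)) (A := fun z => vo k cv (O z) 2) (by simpa using a2) (by
      rintro z _ ⟨c, hc, rfl⟩ hr
      obtain ⟨x, hx, a, ha, q⟩ := mem_sup.1 hr
      obtain ⟨c', q1, q2, q3⟩ := hct z c hc fun s hs => by
        have : x ∈ vo k cv (D s) 2 := a4 s ⟨hx, by
          rw [eq_sub_of_add_eq q, sub_eq_add_neg]
          exact add_mem_sup ⟨c, hc, rfl⟩ (neg_mem (vo_mono hs ha))⟩
        have h3 := add_mem (hP s (cob k c)) ((show x + a = P (cob k c) from q) ▸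
          add_mem this (vo_mono hs ha))
        simpa using h3
      refine ⟨_, ⟨c', q1, rfl⟩, (mem_iInf _).2 fun s =>
        kD s _ (vs_le (Or.inr ⟨s, rfl⟩) subset_rfl q2),
        fun z' hz => hO z' _ (vs_le (Or.inl ⟨z', hz, rfl⟩) subset_rfl q2), ?_⟩
      exact (map_sub P _ _) ▸ hO z _ q3)
  exact ⟨E, fun f => sup_le (b3.trans le_rfl) le_sup_right (a3 trivial), b4,
    fun s => St.mono (a4 s) b1, b2⟩

theorem lemE_phi {ζ δ : Type*} [Finite ζ] [Finite δ] {O : ζ → Set X} {D : δ → Set X}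
    (hD : Pairwise fun s t => Disjoint (D s) (D t))
    (hct : ∀ z, Ct k cv (O z) D (O '' {z}ᶜ ∪ range D)) (hO : ∀ z, Kp P (vo k cv (O z) 2))
    (hP : ∀ s f, f - P f ∈ vo k cv (D s) 2) :
    ∃ E, (∀ f, P f ∈ E ⊔ (CC k X 1).map (P ∘ₗ cob k)) ∧
      (∀ z, St (cob k) (CC k X 1) P E (vo k cv (O z) 2)) ∧
      ∀ s, St (cob k) (CC k X 1) P E (vo k cv (D s) 2) :=
  let ⟨E, h1, h2, h3, _⟩ := lemE_phi' hD hct hO hP; ⟨E, h1, h2, h3⟩

/-- `P` projects along the coboundaries of the wall cochains `Hs` -/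
structure Pj (Hs : Submodule k (Co k 1 X)) (P : Co k 2 X →ₗ[k] Co k 2 X) : Prop where
  le : Hs ≤ CC k X 1
  sub : ∀ f, f - P f ∈ Hs.map (cob k)
  zero : ∀ y ∈ Hs, P (cob k y) = 0

theorem pj_Pd {J : Type*} [Fintype J] [DecidableEq J] {D : J → Dual k (Co k 2 X)}
    {h : J → Co k 1 X} (h1 : ∀ j, h j ∈ CC k X 1)
    (h2 : ∀ j j', D j (cob k (h j')) = if j = j' then 1 else 0) :
    Pj (span k (range h)) (Pd D fun j => cob k (h j)) :=
  ⟨span_le.2 (range_subset_iff.2 h1),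
    sub_Pd_mem fun j => ⟨h j, subset_span ⟨j, rfl⟩, rfl⟩, fun _ hy =>
      (show span k (range h) ≤ LinearMap.ker (Pd D (fun j => cob k (h j)) ∘ₗ cob k) from
        span_le.2 (range_subset_iff.2 fun j => Pd_self h2 j)) hy⟩

variable {Hs : Submodule k (Co k 1 X)} {𝒰 𝒱 : Set (Set X)}

theorem exists_zp (o : Ov cv) (ho : ∀ U ∈ 𝒰, IsOpen U) {c : Co k n X} (h1 : c ∈ CC k X n)
    (h2 : cob k c ∈ vs k cv 𝒰 (n + 1)) : ∃ c' ∈ ZP k (⋃₀ 𝒰) k n, c' - c ∈ vs k cv 𝒰 n :=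
  ⟨exs k (image2 (· ∩ ·) 𝒰 cv) c, ⟨exs_Cc h1, exs_Z (by
      rintro _ ⟨U, hU, V, hV, rfl⟩; exact (ho U hU).inter (o.1 V hV)) (by
        rintro x ⟨U, hU, hx⟩
        obtain ⟨V, hV, hx'⟩ : x ∈ ⋃₀ cv := o.2 ▸ mem_univ x
        exact ⟨_, ⟨U, hU, V, hV, rfl⟩, hx, hx'⟩) (Sb.Z_mono Sb.inf_le_right (by
      rw [Sb.mem_Z, sm_rf]; exact h2))⟩, by rw [vs, ← sm_rf]; exact exs_sub⟩

theorem Pj.win (p : Pj Hs P) (o : Ov cv) (ho : ∀ U ∈ 𝒰, IsOpen U) (hs : 𝒱 ⊆ 𝒰)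
    (hZ : ZP k (⋃₀ 𝒰) k 1 ≤ Hs ⊔ BP k (⋃₀ 𝒱) k 1) {c : Co k 1 X} (h1 : c ∈ CC k X 1)
    (h2 : P (cob k c) ∈ vs k cv 𝒰 2) :
    ∃ y ∈ Hs, ∃ η ∈ CC k X 0, c - y - cob k η ∈ vs k cv 𝒱 1 := by
  obtain ⟨y, hy, e⟩ := p.sub (cob k c)
  have h3 : exs k (image2 (· ∩ ·) 𝒰 cv) (c - y) ∈ ZP k (⋃₀ 𝒰) k 1 :=
    ⟨exs_Cc (sub_mem h1 (p.le hy)), exs_Z (by
      rintro _ ⟨U, hU, V, hV, rfl⟩; exact (ho U hU).inter (o.1 V hV)) (by
        rintro x ⟨U, hU, hx⟩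
        obtain ⟨V, hV, hx'⟩ : x ∈ ⋃₀ cv := o.2 ▸ mem_univ x
        exact ⟨_, ⟨U, hU, V, hV, rfl⟩, hx, hx'⟩) (Sb.Z_mono Sb.inf_le_right (by
      rw [Sb.mem_Z, map_sub, e, sm_rf]; simpa using h2))⟩
  obtain ⟨y', hy', b, hb, q⟩ := mem_sup.1 (hZ h3)
  obtain ⟨η, hη, hb'⟩ := mem_BP.1 hb
  refine ⟨y + y', add_mem hy hy', η, hη, ?_⟩
  have : c - (y + y') - cob k η = 
      (b - cob k η) - (exs k (image2 (· ∩ ·) 𝒰 cv) (c - y) - (c - y)) := by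
    rw [← q]; abel
  rw [this]
  exact sub_mem (vo_le subset_rfl (on_le subset_rfl hb'))
    (vs_mono hs (by rw [vs, ← sm_rf]; exact exs_sub))

theorem Pj.win' (p : Pj Hs P) (o : Ov cv) (ho : ∀ U ∈ 𝒰, IsOpen U) (hs : 𝒱 ⊆ 𝒰)
    (hZ : ZP k (⋃₀ 𝒰) k 1 ≤ Hs ⊔ BP k (⋃₀ 𝒱) k 1) {c : Co k 1 X} (h1 : c ∈ CC k X 1)
    (h2 : P (cob k c) ∈ vs k cv 𝒰 2) :
    ∃ c' ∈ CC k X 1, c' ∈ vs k cv 𝒱 1 ∧ P (cob k c') = P (cob k c) := by
  obtain ⟨y, hy, η, hη, h⟩ := p.win o ho hs hZ h1 h2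
  exact ⟨_, sub_mem (sub_mem h1 (p.le hy)) (cob_mem_Cc hη), h, by
    simp [cob_cob, p.zero y hy]⟩

variable {E : Submodule k (Co k 2 X)} {H : Co k 2 X →ₗ[k] Co k 1 X}

theorem St.vs (h : ∀ U ∈ 𝒰, St (cob k) (CC k X 1) P E (vo k cv U 2)) :
    St (cob k) (CC k X 1) P E (vs k cv 𝒰 2) := vs_eq (k := k) 𝒰 ▸ St.iInf fun U => St.iInf (h U)

theorem Kp.vs (h : ∀ U ∈ 𝒰, Kp P (vo k cv U 2)) : Kp P (vs k cv 𝒰 2) :=
  vs_eq (k := k) 𝒰 ▸ Kp.iInf fun U => Kp.iInf (h U)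

/-- (S1) a normal form that is exact on the zone `U` vanishes on `U` -/
theorem St.s1 {U : Set X} (h : St (cob k) (CC k X 1) P E (vo k cv U 2)) (hP : Kp P (vo k cv U 2))
    {f : Co k 2 X} (h1 : P f ∈ E) (h2 : f ∈ (CC k X 1).map (cob k) ⊔ vo k cv U 2) :
    P f ∈ vo k cv U 2 := h.nm hP f h1 h2

/-- A wall: zones `𝒵 0`, windows `𝒵 i`, normal forms `E`, parametrix `H`. -/
structure Wp (cv : Set (Set X)) (𝒵 : ℕ → Set (Set X)) (n : ℕ) (Hs : Submodule k (Co k 1 X))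
    (P : Co k 2 X →ₗ[k] Co k 2 X) (E : Submodule k (Co k 2 X))
    (H : Co k 2 X →ₗ[k] Co k 1 X) : Prop where
  pj : Pj Hs P
  anti : Antitone 𝒵
  op : ∀ U ∈ 𝒵 0, IsOpen U
  kp : ∀ U ∈ 𝒵 0, Kp P (vo k cv U 2)
  st : ∀ U ∈ 𝒵 0, St (cob k) (CC k X 1) P E (vo k cv U 2)
  win : ∀ i < n, ZP k (⋃₀ 𝒵 i) k 1 ≤ Hs ⊔ BP k (⋃₀ 𝒵 (i + 1)) k 1
  par : Par (cob k) (CC k X 1) P E H
  fl : ∀ i < n, ∀ f ∈ vs k cv (𝒵 i) 2, H f ∈ vs k cv (𝒵 (i + 1)) 1

theorem exists_wp (o : Ov cv) {𝒵 : ℕ → Set (Set X)} (n : ℕ) (pj : Pj Hs P) (anti : Antitone 𝒵)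
    (op : ∀ U ∈ 𝒵 0, IsOpen U) (kp : ∀ U ∈ 𝒵 0, Kp P (vo k cv U 2))
    (st : ∀ U ∈ 𝒵 0, St (cob k) (CC k X 1) P E (vo k cv U 2))
    (win : ∀ i < n, ZP k (⋃₀ 𝒵 i) k 1 ≤ Hs ⊔ BP k (⋃₀ 𝒵 (i + 1)) k 1)
    (hT : ∀ f, P f ∈ E ⊔ (CC k X 1).map (P ∘ₗ cob k)) : ∃ H, Wp cv 𝒵 n Hs P E H := by
  have s0 : ∀ i, 𝒵 i ⊆ 𝒵 0 := fun i => anti (Nat.zero_le i)
  obtain ⟨H, h1, h2⟩ := exists_H hT (V := fun i => vs k cv (𝒵 i) 2)
    (W := fun i => vs k cv (𝒵 (i + 1)) 1) (fun i j h => vs_mono (anti h))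
    (fun i j h => vs_mono (anti (Nat.succ_le_succ h))) n
    (fun i _ => Kp.vs fun U hU => kp U (s0 i hU))
    (fun i _ => (St.vs fun U hU => st U (s0 i hU)).nm (Kp.vs fun U hU => kp U (s0 i hU)))
    fun i hi c h1 h2 => pj.win' o (fun U hU => op U (s0 i hU)) (anti i.le_succ) (win i hi) h1 h2
  exact ⟨H, pj, anti, op, kp, st, win, h1, h2⟩

/-- The vertex: finitely many disjoint walls and a core `Oc`. -/
theorem exists_glob (o : Ov cv) {ι : Type*} [Finite ι] {𝒵 : ι → ℕ → Set (Set X)} {n : ι → ℕ}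
    {Hsi : ι → Submodule k (Co k 1 X)} {Pi : ι → Co k 2 X →ₗ[k] Co k 2 X}
    {Ei : ι → Submodule k (Co k 2 X)} {Hi : ι → Co k 2 X →ₗ[k] Co k 1 X}
    (w : ∀ i, Wp cv (𝒵 i) (n i) (Hsi i) (Pi i) (Ei i) (Hi i)) (hn : ∀ i, 0 < n i)
    (hd : Pairwise fun i j => Disjoint (⋃₀ 𝒵 i 0) (⋃₀ 𝒵 j 0))
    (hP : ∀ i f, P f - Pi i f ∈ vs k cv (𝒵 i 0) 2) {Oc : Set X} {D : ι → Set X}
    (hD : ∀ i, D i ∈ 𝒵 i 0) (hDc : ∀ i, D i ⊆ Oc) (pj : Pj Hs P)
    (kc : Kp P (vo k cv Oc 2)) (hct : Ct k cv Oc D (⋃ i, 𝒵 i 0))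
    (hat : ∀ i, ∀ y ∈ Hsi i, ∃ y' ∈ CC k X 1, P (cob k y') = 0 ∧ y' - y ∈ vs k cv (𝒵 i 1) 1 ∧
      ∀ j, j ≠ i → y' ∈ vs k cv (𝒵 j 1) 1) :
    ∃ E H, Par (cob k) (CC k X 1) P E H ∧ St (cob k) (CC k X 1) P E (vo k cv Oc 2) ∧
      (∀ i, ∀ U ∈ 𝒵 i 0, St (cob k) (CC k X 1) P E (vo k cv U 2) ∧ Kp P (vo k cv U 2)) ∧
      (∀ i, E ≤ Ei i ⊔ vs k cv (𝒵 i 0) 2) ∧ ∀ i f, H f - Hi i f ∈ vs k cv (𝒵 i 1) 1 := by
  classical
  have := Fintype.ofFinite ι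
  have W : Wal (cob k) (CC k X 1) P Pi (fun i => vs k cv (𝒵 i 0) 2) fun i => vs k cv (𝒵 i 0) 1 :=
    ⟨hP, fun i => Kp.vs (w i).kp, fun i c hc => Sb.cob_mem hc, fun c hc =>
      let ⟨c0, h1, h2⟩ := glue hd hc; ⟨c0, h1, fun i => vo_le subset_rfl (on_le subset_rfl (h2 i))⟩⟩
  obtain ⟨E, e1, e2, e3⟩ := W.exists_E (fun i => (w i).par) (Ac := vo k cv Oc 2)
    (Di := fun i => vo k cv (D i) 2) (fun i => vs_le (hD i) subset_rfl) (fun i => vo_mono (hDc i))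
    (fun i => (w i).st _ (hD i)) fun c h1 h2 => by
      obtain ⟨y, hy, e⟩ := pj.sub (cob k c)
      obtain ⟨c', q1, q2, q3⟩ := hct (c - y) (sub_mem h1 (pj.le hy)) fun i _ => by
        rw [map_sub, e]; simpa using h2 i
      refine ⟨c', q1, fun i => W.kp' i _ (vs_mono (subset_iUnion (fun i => 𝒵 i 0) i) q2), ?_⟩
      simpa [pj.zero y hy] using kc _ q3
  obtain ⟨H, h1, h2⟩ := W.exists_H (Vi := fun i => vs k cv (𝒵 i 1) 1) (fun i => (w i).par)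
    (fun i => St.vs (w i).st) e1 e2 (fun i => vs_mono ((w i).anti zero_le_one)) fun c h1 h2 => by
      have := fun i => (w i).pj.win o (w i).op ((w i).anti zero_le_one) ((w i).win 0 (hn i)) h1
        (by simpa using sub_mem (h2 i) (hP i (cob k c)))
      choose y hy η hη q using this
      choose y' a1 a2 a3 a4 using fun i => hat i (y i) (hy i)
      obtain ⟨η0, b1, b2⟩ := glue hd hη
      refine ⟨c - ∑ i, y' i - cob k η0,
        sub_mem (sub_mem h1 (sum_mem fun i _ => a1 i)) (cob_mem_Cc b1), fun i => ?_, by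
          simp [cob_cob, a2]⟩
      have : c - ∑ i, y' i - cob k η0 = (c - y i - cob k (η i)) - (y' i - y i) -
          ∑ j ∈ Finset.univ.erase i, y' j - cob k (η0 - η i) := by
        rw [← Finset.add_sum_erase _ _ (Finset.mem_univ i), map_sub]; abel
      rw [this]
      exact sub_mem (sub_mem (sub_mem (q i) (a3 i)) (sum_mem fun j hj =>
        a4 j i (Finset.ne_of_mem_erase hj).symm)) (vs_mono ((w i).anti zero_le_one)
          (vo_le subset_rfl (on_le subset_rfl (Sb.cob_mem (b2 i)))))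
  refine ⟨E, H, h1, e3, fun i U hU => ⟨(W.st (vs_le hU subset_rfl) ((w i).st U hU)).mono e1,
    fun f hf => ?_⟩, fun i => e1.trans (iInf_le _ i), h2⟩
  simpa using add_mem (vs_le hU subset_rfl (hP i f)) ((w i).kp U hU f hf)

section chain
variable {s : X → ℝ} {a b : ℕ → ℝ}

/-- zones of a level function -/
def Oz (s : X → ℝ) (a b : ℕ → ℝ) (z : ℕ) : Set X := s ⁻¹' Ioo (a z) (b z)

/-- overlaps of consecutive zones -/
def Dz (s : X → ℝ) (a b : ℕ → ℝ) (t : ℕ) : Set X := s ⁻¹' Ioo (a (t + 1)) (b t)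

theorem ct_chain (o : Ov cv) (hc : Hc0 k X k 2) (hs : Continuous s) (ha : Monotone a) (hb : Monotone b)
    (n : ℕ) (hab : ∀ t < n, a (t + 1) < b t) (z : Fin (n + 1)) :
    Ct k cv (Oz s a b z) (fun t : Fin n => Dz s a b t)
      ((fun z : Fin (n + 1) => Oz s a b z) '' {z}ᶜ ∪ range fun t : Fin n => Dz s a b t) := by
  refine ct_of o hc (Finset.univ.filter fun t : Fin n => t.1 + 1 = z ∨ t.1 = z)
    (fun t => if t.1 < z then s ⁻¹' Iio (b t) else s ⁻¹' Ioi (a (t + 1)))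
    (fun t => if t.1 < z then s ⁻¹' Ioi (a (t + 1)) else s ⁻¹' Iio (b t)) ?_ ?_ ?_ ?_ ?_ ?_ ?_
  · intro t _; split_ifs
    exacts [isOpen_Iio.preimage hs, isOpen_Ioi.preimage hs]
  · intro t _; split_ifs
    exacts [isOpen_Ioi.preimage hs, isOpen_Iio.preimage hs]
  · intro t _
    refine eq_univ_of_forall fun x => ?_
    have := hab t t.2
    split_ifs <;> simp only [mem_union, mem_preimage, mem_Iio, mem_Ioi] <;> by_contra! h <;>
      linarith [h.1, h.2]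
  · intro t ht t' ht' hne x hx
    have e : t.1 ≠ t'.1 := fun e => hne (Fin.ext e)
    simp only [Finset.mem_filter, Finset.mem_univ, true_and] at ht ht'
    by_cases h1 : t.1 < z <;> by_cases h2 : t'.1 < z <;> simp only [h1, h2, if_true, if_false] at hx ⊢
    · omega
    · exact lt_of_lt_of_le hx (hb (by omega : t.1 ≤ t'.1))
    · exact lt_of_le_of_lt (ha (by omega : t'.1 + 1 ≤ t.1 + 1)) hx
    · omega
  · intro t ht
    simp only [Finset.mem_filter, Finset.mem_univ, true_and] at ht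
    refine ⟨fun x hx => ?_, fun x hx => ⟨lt_of_le_of_lt (ha (by omega)) hx.1,
      lt_of_lt_of_le hx.2 (hb (by omega))⟩⟩
    split_ifs at hx
    exacts [⟨hx.2, hx.1⟩, hx]
  · intro t ht x hx
    simp only [Finset.mem_filter, Finset.mem_univ, true_and] at ht
    split_ifs with h1
    · exact lt_of_le_of_lt (ha (by omega)) hx.1
    · exact lt_of_lt_of_le hx.2 (hb (by omega))
  · have hz := z.2
    rintro _ (⟨z', hz', rfl⟩ | ⟨t, rfl⟩)
    · have e : z'.1 ≠ z.1 := fun e => hz' (Fin.ext e)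
      have hz' := z'.2
      rcases lt_or_gt_of_ne e with h | h
      · refine ⟨⟨z - 1, by omega⟩, by simp; omega, fun x hx => ?_⟩
        rw [if_pos (show z.1 - 1 < z.1 by omega)]
        exact lt_of_lt_of_le hx.2 (hb (by simp; omega))
      · refine ⟨⟨z, by omega⟩, by simp, fun x hx => ?_⟩
        rw [if_neg (by simp)]
        exact lt_of_le_of_lt (ha (by simp; omega)) hx.1
    · have ht := t.2
      rcases lt_or_ge t.1 z.1 with h | h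
      · refine ⟨⟨z - 1, by omega⟩, by simp; omega, fun x hx => ?_⟩
        rw [if_pos (show z.1 - 1 < z.1 by omega)]
        exact lt_of_lt_of_le hx.2 (hb (by simp; omega))
      · refine ⟨⟨z, by omega⟩, by simp, fun x hx => ?_⟩
        rw [if_neg (by simp)]
        exact lt_of_le_of_lt (ha (by simp; omega)) hx.1

/-- Lemma E for the zones `0, …, n` of a level function. -/
theorem lemE_chain (o : Ov cv) (hc : Hc0 k X k 2) (hs : Continuous s) (ha : Monotone a) (hb : Monotone b)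
    (n : ℕ) (hab : ∀ t < n, a (t + 1) < b t) (hba : ∀ t, b t ≤ a (t + 2))
    (hO : ∀ z ≤ n, Kp P (vo k cv (Oz s a b z) 2)) (hP : ∀ t < n, ∀ f, f - P f ∈ vo k cv (Dz s a b t) 2) :
    ∃ E, (∀ f, P f ∈ E ⊔ (CC k X 1).map (P ∘ₗ cob k)) ∧
      ∀ z ≤ n, St (cob k) (CC k X 1) P E (vo k cv (Oz s a b z) 2) := by
  obtain ⟨E, h1, h2, -⟩ := lemE_phi (cv := cv) (P := P) (O := fun z : Fin (n + 1) => Oz s a b z)
    (D := fun t : Fin n => Dz s a b t) (fun t t' h => Set.disjoint_left.2 fun x hx hx' => by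
      rcases lt_or_gt_of_ne (fun e => h (Fin.ext e) : t.1 ≠ t'.1) with h | h
      · linarith [hx.2, hx'.1, hba t, ha (by omega : t.1 + 2 ≤ t'.1 + 1)]
      · linarith [hx.1, hx'.2, hba t', ha (by omega : t'.1 + 2 ≤ t.1 + 1)])
    (ct_chain o hc hs ha hb n hab) (fun z => hO z (Nat.le_of_lt_succ z.2)) fun t => hP t t.2
  exact ⟨E, h1, fun z hz => h2 ⟨z, Nat.lt_succ_of_le hz⟩⟩

/-- The wall package from located cochains `h j` (coboundary located in the zone `loc j`). -/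
theorem exists_wall (o : Ov cv) (hc : Hc0 k X k 2) (hs : Continuous s) (ha : Monotone a)
    (hb : Monotone b) (n : ℕ) (hab : ∀ t < n, a (t + 1) < b t) (hba : ∀ t, b t ≤ a (t + 2))
    {J : Type*} [Fintype J] [DecidableEq J] {h : J → Co k 1 X} (loc : J → ℕ)
    (h1 : ∀ j, h j ∈ CC k X 1)
    (h2 : ∀ j, ∀ z ≤ n, z ≠ loc j → cob k (h j) ∈ vo k cv (Oz s a b z) 2)
    (h3 : ∀ j, ∀ t < n, cob k (h j) ∈ vo k cv (Dz s a b t) 2)
    (h4 : ∀ j (x : J → k), ∑ j', x j' • cob k (h j') ∈ vo k cv (Oz s a b (loc j)) 2 → x j = 0)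
    {T : ℕ → Set ℕ} (hT : Antitone T) (hT0 : T 0 ⊆ Iic n) (m : ℕ)
    (win : ∀ i < m, ZP k (⋃₀ (Oz s a b '' T i)) k 1 ≤
      span k (range h) ⊔ BP k (⋃₀ (Oz s a b '' T (i + 1))) k 1) :
    ∃ (D : J → Dual k (Co k 2 X)) (E : Submodule k (Co k 2 X)) (H : Co k 2 X →ₗ[k] Co k 1 X),
      (∀ j j', D j (cob k (h j')) = if j = j' then 1 else 0) ∧
      (∀ j, ∀ f ∈ vo k cv (Oz s a b (loc j)) 2, D j f = 0) ∧
      Wp cv (fun i => Oz s a b '' T i) m (span k (range h)) (Pd D fun j => cob k (h j)) E H := by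
  obtain ⟨D, d1, d2⟩ := exists_D (fun j => vo k cv (Oz s a b (loc j)) 2) h4
  have kp : ∀ z ≤ n, Kp (Pd D fun j => cob k (h j)) (vo k cv (Oz s a b z) 2) := fun z hz =>
    kp_Pd fun j => (em (z = loc j)).imp (fun e => by rw [e]; exact d2 j) (h2 j z hz)
  obtain ⟨E, e1, e2⟩ := lemE_chain o hc hs ha hb n hab hba kp fun t ht =>
    sub_Pd_mem fun j => h3 j t ht
  obtain ⟨H, w⟩ := exists_wp o (𝒵 := fun i => Oz s a b '' T i) m (pj_Pd h1 d1)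
    (fun i j hij => image_mono (hT hij))
    (by rintro _ ⟨z, -, rfl⟩; exact isOpen_Ioo.preimage hs)
    (by rintro _ ⟨z, hz, rfl⟩; exact kp z (hT0 hz))
    (by rintro _ ⟨z, hz, rfl⟩; exact e2 z (hT0 hz)) win e1
  exact ⟨D, E, H, d1, d2, w⟩

omit [TopologicalSpace X] in
/-- an interval of zones -/
theorem sUnion_Oz (ha : Monotone a) (hb : Monotone b) {i j : ℕ}
    (hab : ∀ t < j, a (t + 1) < b t) (hij : i ≤ j) : ⋃₀ (Oz s a b '' Icc i j) = s ⁻¹' Ioo (a i) (b j) := by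
  refine subset_antisymm ?_ ?_
  · rintro x ⟨_, ⟨z, hz, rfl⟩, hx⟩
    exact ⟨(ha hz.1).trans_lt hx.1, hx.2.trans_le (hb hz.2)⟩
  · induction j, hij using Nat.le_induction with
    | base => exact fun x hx => ⟨_, ⟨i, by simp, rfl⟩, hx⟩
    | succ j hij ih =>
      intro x hx
      by_cases h : s x < b j
      · obtain ⟨_, ⟨z, hz, rfl⟩, hx'⟩ := ih (fun t ht => hab t (by omega))
          (show x ∈ _ from ⟨hx.1, h⟩)
        exact ⟨_, ⟨z, ⟨hz.1, hz.2.trans j.le_succ⟩, rfl⟩, hx'⟩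
      · exact ⟨_, ⟨j + 1, ⟨hij.trans j.le_succ, le_rfl⟩, rfl⟩,
          (hab j j.lt_succ_self).trans_le (not_lt.1 h), hx.2⟩

end chain

end Crest.Agent.N255.Le
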