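import Crest.Agent.N255.Ku.Lin
/-!
# Row 255 (helper71): located normal forms and located parametrices, linear algebra

`E` is a space of normal forms: complementary to the exact part, and a normal form that is exact on
a zone vanishes there. `H` is a parametrix into normal form, adapted to a flag.
-/
namespace Crest.Agent.N255.Le
open Submodule

variable {k M N : Type*} [Field k] [AddCommGroup M] [Module k M] [AddCommGroup N] [Module k N]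

theorem shrink {E' R A : Submodule k M}
    (h2 : ∀ x ∈ E', x ∈ R ⊔ A → ∃ r ∈ R, r ∈ E' ∧ x - r ∈ A) :
    ∃ E, E ≤ E' ∧ E' ⊓ A ≤ E ∧ E' ≤ E ⊔ R ∧ E ⊓ (R ⊔ A) ≤ A := by
  obtain ⟨F, hF⟩ := (E' ⊓ (R ⊔ A)).exists_isCompl
  refine ⟨(F ⊓ E') ⊔ (E' ⊓ A), sup_le inf_le_right inf_le_left, le_sup_right, ?_, ?_⟩
  · intro x hx
    obtain ⟨w, hw, f, hf, rfl⟩ := mem_sup.1 (hF.sup_eq_top ▸ mem_top : x ∈ (E' ⊓ (R ⊔ A)) ⊔ F)
    obtain ⟨r, hr, hr', ha⟩ := h2 w hw.1 hw.2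
    have hf' : f ∈ E' := by simpa using E'.sub_mem hx hw.1
    have : w + f = (f + (w - r)) + r := by abel
    rw [this]
    exact add_mem_sup (add_mem_sup ⟨hf, hf'⟩ ⟨E'.sub_mem hw.1 hr', ha⟩) hr
  · rintro x ⟨hx, hx'⟩
    obtain ⟨f, hf, a, ha, rfl⟩ := mem_sup.1 hx
    have h3 : f ∈ R ⊔ A := by simpa using (R ⊔ A).sub_mem hx' (mem_sup_right ha.2)
    have h4 : f = 0 := (Submodule.disjoint_def.1 hF.disjoint) f ⟨hf.2, h3⟩ hf.1
    simpa [h4] using ha.2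

/-- Lemma E: finitely many zones `A i`, starting from `E0`. -/
theorem lemE {ι : Type*} [Finite ι] {E0 B R : Submodule k M} {A : ι → Submodule k M}
    (hB : B ≤ E0)
    (h : ∀ i, ∀ r ∈ R, r ∈ E0 ⊔ A i → ∃ r' ∈ R, r' ∈ B ∧ (∀ j, j ≠ i → r' ∈ A j) ∧ r - r' ∈ A i) :
    ∃ E, E ≤ E0 ∧ B ⊓ ⨅ j, A j ≤ E ∧ E0 ≤ E ⊔ R ∧ ∀ i, E ⊓ (R ⊔ A i) ≤ A i := by
  classical
  have key : ∀ s : Finset ι, ∃ E, E ≤ E0 ∧ (∀ x ∈ B, (∀ j ∈ s, x ∈ A j) → x ∈ E) ∧ E0 ≤ E ⊔ R ∧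
      ∀ i ∈ s, E ⊓ (R ⊔ A i) ≤ A i := by
    intro s
    induction s using Finset.induction_on with
    | empty => exact ⟨E0, le_rfl, fun x hx _ => hB hx, le_sup_left, by simp⟩
    | insert i s hi ih =>
      obtain ⟨E', h1, h2, h3, h4⟩ := ih
      obtain ⟨E, e1, e2, e3, e4⟩ := shrink (E' := E') (R := R) (A := A i) fun x hx hx' => by
        obtain ⟨r, hr, a, ha, rfl⟩ := mem_sup.1 hx'
        obtain ⟨r', q1, q2, q3, q4⟩ := h i r hr (by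
          simpa using (E0 ⊔ A i).sub_mem (mem_sup_left (h1 hx)) (mem_sup_right ha))
        refine ⟨r', q1, h2 r' q2 fun j hj => q3 j fun e => hi (e ▸ hj), ?_⟩
        have : r + a - r' = r - r' + a := by abel
        rw [this]; exact (A i).add_mem q4 ha
      refine ⟨E, e1.trans h1, fun x hx hx' => e2 ⟨h2 x hx fun j hj => hx' j
        (Finset.mem_insert_of_mem hj), hx' i (Finset.mem_insert_self _ _)⟩,
        h3.trans (sup_le e3 le_sup_right), fun j hj => ?_⟩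
      rcases Finset.mem_insert.1 hj with rfl | hj
      · exact e4
      · exact (inf_le_inf_right _ e1).trans (h4 j hj)
  have := Fintype.ofFinite ι
  obtain ⟨E, h1, h2, h3, h4⟩ := key Finset.univ
  exact ⟨E, h1, fun x hx => h2 x hx.1 fun j _ => (mem_iInf _).1 hx.2 j, h3,
    fun i => h4 i (Finset.mem_univ i)⟩

/-- A linear section of a linear relation, adapted to a flag. -/
theorem exists_rel (G : Submodule k (M × N)) {V : ℕ → Submodule k M} {W : ℕ → Submodule k N}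
    (hV : Monotone V) (hW : Monotone W) (n : ℕ) (h0 : ∀ f, ∃ c, (f, c) ∈ G)
    (h : ∀ i < n, ∀ f ∈ V i, ∃ c ∈ W i, (f, c) ∈ G) :
    ∃ S : M →ₗ[k] N, (∀ f, (f, S f) ∈ G) ∧ ∀ i < n, ∀ f ∈ V i, S f ∈ W i := by
  let P : ℕ → Submodule k (M × N) := fun i => if i < n then G ⊓ (V i).prod (W i) else G
  have hP : Monotone P := fun i j hij => by
    simp only [P]
    split_ifs with h1 h2 h2
    · exact inf_le_inf_left _ (prod_mono (hV hij) (hW hij))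
    · exact inf_le_left
    · omega
    · exact le_rfl
  obtain ⟨s, h1, h2⟩ := Ku.exists_sec (LinearMap.fst k M N) hP n
  have hn : P n = G := if_neg (lt_irrefl n)
  have h3 : ∀ f, (s f).1 = f := fun f => by
    obtain ⟨c, hc⟩ := h0 f
    exact (h2 n le_rfl (f, c) (hn ▸ hc)).2
  refine ⟨LinearMap.snd k M N ∘ₗ s, fun f => ?_, fun i hi f hf => ?_⟩
  · have : (f, (s f).2) = s f := Prod.ext (h3 f).symm rfl
    exact this ▸ hn ▸ h1 f
  · obtain ⟨c, hc, hG⟩ := h i hi f hf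
    have hi' : P i = G ⊓ (V i).prod (W i) := if_pos hi
    have := (h2 i hi.le (f, c) (hi' ▸ ⟨hG, hf, hc⟩)).1
    rw [hi'] at this
    exact this.2.2

theorem exists_rel0 (G : Submodule k (M × N)) (h0 : ∀ f, ∃ c, (f, c) ∈ G) :
    ∃ S : M →ₗ[k] N, ∀ f, (f, S f) ∈ G :=
  let ⟨S, h, _⟩ := exists_rel G (V := fun _ => ⊤) (W := fun _ => ⊤) monotone_const monotone_const
    0 h0 (by simp)
  ⟨S, h⟩

variable {d : N →ₗ[k] M} {C : Submodule k N} {P : M →ₗ[k] M} {E A : Submodule k M}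
  {H : M →ₗ[k] N}

/-- `H` is a parametrix into the normal forms `E` (after `P`). -/
structure Par (d : N →ₗ[k] M) (C : Submodule k N) (P : M →ₗ[k] M) (E : Submodule k M)
    (H : M →ₗ[k] N) : Prop where
  mem : ∀ f, H f ∈ C
  nf : ∀ f, P (f - d (H f)) ∈ E

/-- A normal form that is exact modulo `A` lies in `A`. -/
def Nm (d : N →ₗ[k] M) (C : Submodule k N) (P : M →ₗ[k] M) (E A : Submodule k M) : Prop :=
  ∀ f, P f ∈ E → f ∈ C.map d ⊔ A → P f ∈ A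

/-- `P` keeps `A`. -/
def Kp (P : M →ₗ[k] M) (A : Submodule k M) : Prop := ∀ f ∈ A, P f ∈ A

theorem Kp.iInf {ι : Sort*} {A : ι → Submodule k M} (h : ∀ i, Kp P (A i)) : Kp P (⨅ i, A i) :=
  fun f hf => (mem_iInf _).2 fun i => h i f ((mem_iInf _).1 hf i)

/-- Strong form of `Nm`. -/
def St (d : N →ₗ[k] M) (C : Submodule k N) (P : M →ₗ[k] M) (E A : Submodule k M) : Prop :=
  E ⊓ (C.map (P ∘ₗ d) ⊔ A) ≤ A

theorem St.mono {E' : Submodule k M} (h : St d C P E A) (h' : E' ≤ E) : St d C P E' A :=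
  (inf_le_inf_right _ h').trans h

theorem St.iInf {ι : Sort*} {A : ι → Submodule k M} (h : ∀ i, St d C P E (A i)) :
    St d C P E (⨅ i, A i) :=
  le_iInf fun i => (inf_le_inf_left _ (sup_le_sup_left (iInf_le A i) _)).trans (h i)

theorem St.nm (h : St d C P E A) (hP : Kp P A) : Nm d C P E A := fun f h1 h2 => by
  obtain ⟨_, ⟨c, hc, rfl⟩, a, ha, rfl⟩ := mem_sup.1 h2
  exact h ⟨h1, map_add P _ _ ▸ add_mem_sup ⟨c, hc, rfl⟩ (hP a ha)⟩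

theorem Nm.iInf {ι : Sort*} {A : ι → Submodule k M} (h : ∀ i, Nm d C P E (A i)) :
    Nm d C P E (⨅ i, A i) := fun f h1 h2 =>
  (mem_iInf _).2 fun i => h i f h1 (sup_le_sup_left (iInf_le A i) _ h2)

theorem Nm.mono {E' : Submodule k M} (h : Nm d C P E A) (h' : E' ≤ E) : Nm d C P E' A :=
  fun f h1 => h f (h' h1)

theorem ex_nf {f : M} (hE : P f ∈ E ⊔ C.map (P ∘ₗ d)) : ∃ c ∈ C, P (f - d c) ∈ E := by
  obtain ⟨e, he, _, ⟨c, hc, rfl⟩, h⟩ := mem_sup.1 hE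
  refine ⟨c, hc, ?_⟩
  rw [map_sub, ← h]; simpa using he

/-- The relation `c ∈ C`, `P (f - d c) ∈ E`. -/
def Gr (d : N →ₗ[k] M) (C : Submodule k N) (P : M →ₗ[k] M) (E : Submodule k M) :
    Submodule k (M × N) :=
  C.comap (LinearMap.snd k M N) ⊓
    E.comap (P ∘ₗ (LinearMap.fst k M N - d ∘ₗ LinearMap.snd k M N))

theorem mem_Gr {f : M} {c : N} : (f, c) ∈ Gr d C P E ↔ c ∈ C ∧ P (f - d c) ∈ E := Iff.rfl

/-- The wall parametrix, adapted to the window flag. -/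
theorem exists_H (hE : ∀ f, P f ∈ E ⊔ C.map (P ∘ₗ d)) {V : ℕ → Submodule k M} {W : ℕ → Submodule k N}
    (hV : Monotone V) (hW : Monotone W) (n : ℕ) (hP : ∀ i < n, Kp P (V i))
    (hN : ∀ i < n, Nm d C P E (V i))
    (hZ : ∀ i < n, ∀ c ∈ C, P (d c) ∈ V i → ∃ c' ∈ C, c' ∈ W i ∧ P (d c') = P (d c)) :
    ∃ H, Par d C P E H ∧ ∀ i < n, ∀ f ∈ V i, H f ∈ W i := by
  obtain ⟨S, h1, h2⟩ := exists_rel (Gr d C P E) hV hW n
    (fun f => let ⟨c, h1, h2⟩ := ex_nf (hE f); ⟨c, mem_Gr.2 ⟨h1, h2⟩⟩) fun i hi f hf => by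
      obtain ⟨c, h1, h2⟩ := ex_nf (hE f)
      have h3 := hN i hi _ h2 (by
        rw [sub_eq_neg_add]; exact add_mem_sup (neg_mem ⟨c, h1, rfl⟩) hf)
      obtain ⟨c', q1, q2, q3⟩ := hZ i hi c h1 (by
        simpa using (V i).sub_mem (hP i hi f hf) h3)
      exact ⟨c', q2, mem_Gr.2 ⟨q1, by rwa [map_sub, q3, ← map_sub]⟩⟩
  exact ⟨S, ⟨fun f => (mem_Gr.1 (h1 f)).1, fun f => (mem_Gr.1 (h1 f)).2⟩, h2⟩

section glob
variable {ι : Type*} {Pi : ι → M →ₗ[k] M} {Ei Ai : ι → Submodule k M} {Wi Vi : ι → Submodule k N}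
  {Hi : ι → M →ₗ[k] N}

/-- Walls `i` with their projections `Pi`, vanishing spaces `Ai`, `Wi` of the whole wall. -/
structure Wal (d : N →ₗ[k] M) (C : Submodule k N) (P : M →ₗ[k] M) (Pi : ι → M →ₗ[k] M)
    (Ai : ι → Submodule k M) (Wi : ι → Submodule k N) : Prop where
  sub : ∀ i f, P f - Pi i f ∈ Ai i
  kp : ∀ i, Kp (Pi i) (Ai i)
  dw : ∀ i, ∀ c ∈ Wi i, d c ∈ Ai i
  glue : ∀ c : ι → N, (∀ i, c i ∈ C) → ∃ c0 ∈ C, ∀ i, c0 - c i ∈ Wi i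

theorem Wal.kp' (w : Wal d C P Pi Ai Wi) (i : ι) : Kp P (Ai i) := fun f hf => by
  simpa using (Ai i).add_mem (w.sub i f) (w.kp i f hf)

theorem Wal.nf (w : Wal d C P Pi Ai Wi) {f : M} {c : ι → N} (h1 : ∀ i, c i ∈ C)
    (h2 : ∀ i, Pi i (f - d (c i)) ∈ Ei i) :
    ∃ c0 ∈ C, (∀ i, c0 - c i ∈ Wi i) ∧ P (f - d c0) ∈ ⨅ i, Ei i ⊔ Ai i := by
  obtain ⟨c0, q1, q2⟩ := w.glue c h1
  refine ⟨c0, q1, q2, (mem_iInf _).2 fun i => ?_⟩
  have : P (f - d c0) = Pi i (f - d (c i)) +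
      ((P (f - d c0) - Pi i (f - d c0)) - Pi i (d (c0 - c i))) := by
    simp only [map_sub]; abel
  rw [this]
  exact add_mem_sup (h2 i) ((Ai i).sub_mem (w.sub i _) (w.kp i _ (w.dw i _ (q2 i))))

theorem Wal.top (w : Wal d C P Pi Ai Wi) (h : ∀ i, Par d C (Pi i) (Ei i) (Hi i)) (f : M) :
    P f ∈ (⨅ i, Ei i ⊔ Ai i) ⊔ C.map (P ∘ₗ d) := by
  obtain ⟨c, h1, -, h2⟩ := w.nf (fun i => (h i).mem f) fun i => (h i).nf f
  have : P f = P (f - d c) + P (d c) := by rw [map_sub]; abel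
  rw [this]
  exact add_mem_sup h2 ⟨c, h1, rfl⟩

/-- A normal form of the walls that is exact on a zone of wall `i` vanishes there. -/
theorem Wal.st (w : Wal d C P Pi Ai Wi) {i : ι} (hA : Ai i ≤ A) (h : St d C (Pi i) (Ei i) A) :
    St d C P (⨅ i, Ei i ⊔ Ai i) A := by
  rintro x ⟨h1, h2⟩
  obtain ⟨e, he, a0, ha0, rfl⟩ := mem_sup.1 ((mem_iInf _).1 h1 i)
  obtain ⟨_, ⟨c, hc, rfl⟩, a, ha, q⟩ := mem_sup.1 h2
  refine A.add_mem (h ⟨he, ?_⟩) (hA ha0)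
  have : e = Pi i (d c) + ((P (d c) - Pi i (d c)) + a - a0) := by
    rw [eq_sub_of_add_eq q.symm, LinearMap.comp_apply]; abel
  rw [this]
  exact add_mem_sup ⟨c, hc, rfl⟩ (A.sub_mem (A.add_mem (hA (w.sub i _)) ha) (hA ha0))

/-- Global normal forms: the wall normal forms on the walls, one more step on the core `Ac`. -/
theorem Wal.exists_E (w : Wal d C P Pi Ai Wi) (h : ∀ i, Par d C (Pi i) (Ei i) (Hi i))
    {Ac : Submodule k M} {Di : ι → Submodule k M} (h1 : ∀ i, Ai i ≤ Di i) (h2 : ∀ i, Ac ≤ Di i)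
    (h3 : ∀ i, St d C (Pi i) (Ei i) (Di i))
    (hc : ∀ c ∈ C, (∀ i, P (d c) ∈ Di i) →
      ∃ c' ∈ C, (∀ i, P (d c') ∈ Ai i) ∧ P (d c) - P (d c') ∈ Ac) :
    ∃ E, E ≤ ⨅ i, Ei i ⊔ Ai i ∧ (∀ f, P f ∈ E ⊔ C.map (P ∘ₗ d)) ∧ St d C P E Ac := by
  obtain ⟨E, e1, -, e3, e4⟩ := lemE (ι := Unit) (E0 := ⨅ i, Ei i ⊔ Ai i) (B := ⨅ i, Ai i)
    (R := C.map (P ∘ₗ d)) (A := fun _ => Ac) (iInf_mono fun i => le_sup_right) (by
      rintro - _ ⟨c, hc', rfl⟩ hr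
      obtain ⟨x, hx, a, ha, q⟩ := mem_sup.1 hr
      obtain ⟨c', q1, q2, q3⟩ := hc c hc' fun i => by
        have : x ∈ Di i := w.st (h1 i) (h3 i) ⟨hx, by
          rw [eq_sub_of_add_eq q, sub_eq_add_neg]
          exact add_mem_sup ⟨c, hc', rfl⟩ (neg_mem (h2 i ha))⟩
        exact (show x + a = P (d c) from q) ▸ (Di i).add_mem this (h2 i ha)
      exact ⟨_, ⟨c', q1, rfl⟩, (mem_iInf _).2 q2, fun j hj => (hj rfl).elim, q3⟩)
  exact ⟨E, e1, fun f => sup_le e3 le_sup_right (w.top h f), e4 ()⟩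

/-- The global parametrix agrees with the wall parametrices modulo `Vi i`. -/
theorem Wal.exists_H (w : Wal d C P Pi Ai Wi) (h : ∀ i, Par d C (Pi i) (Ei i) (Hi i))
    (hS : ∀ i, St d C (Pi i) (Ei i) (Ai i)) (hE : E ≤ ⨅ i, Ei i ⊔ Ai i)
    (hT : ∀ f, P f ∈ E ⊔ C.map (P ∘ₗ d)) (hWV : ∀ i, Wi i ≤ Vi i)
    (hat : ∀ c ∈ C, (∀ i, P (d c) ∈ Ai i) → ∃ c' ∈ C, (∀ i, c' ∈ Vi i) ∧ P (d c') = P (d c)) :
    ∃ H, Par d C P E H ∧ ∀ i f, H f - Hi i f ∈ Vi i := by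
  obtain ⟨S, hS'⟩ := exists_rel0 (Gr d C P E ⊓ ⨅ i, (Vi i).comap
    (LinearMap.snd k M N - Hi i ∘ₗ LinearMap.fst k M N)) fun f => by
      obtain ⟨c0, q1, q2, q3⟩ := w.nf (fun i => (h i).mem f) fun i => (h i).nf f
      obtain ⟨c1, r1, r2⟩ := ex_nf (hT (f - d c0))
      obtain ⟨c', s1, s2, s3⟩ := hat c1 r1 fun i => w.st le_rfl (hS i) ⟨by
        simpa using sub_mem q3 (hE r2), mem_sup_left ⟨c1, r1, rfl⟩⟩
      refine ⟨c0 + c', mem_Gr.2 ⟨add_mem q1 s1, ?_⟩, (mem_iInf _).2 fun i => ?_⟩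
      · rwa [map_add, ← sub_sub, map_sub, s3, ← map_sub]
      · show c0 + c' - Hi i f ∈ Vi i
        rw [add_sub_right_comm]
        exact add_mem (hWV i (q2 i)) (s2 i)
  exact ⟨S, ⟨fun f => (mem_Gr.1 (hS' f).1).1, fun f => (mem_Gr.1 (hS' f).1).2⟩,
    fun i f => (mem_iInf _).1 (hS' f).2 i⟩

end glob
end Crest.Agent.N255.Le
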