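import Crest.Agent.N255.Le.Phi
import Crest.Agent.N255.Wz.Zo
/-!
# Row 255 (helper71): normal form packages of a wall (`Nf`) and of a vertex (`Vf`)
-/
namespace Crest.Agent.N255.Le
open Submodule Set Tp Module Wn Wz

variable {k : Type} [Field k] {X : Type} [TopologicalSpace X] {𝒞 : Set (Set X)}

section wall
variable {s s' : C(X, ℝ)} {l r l' r' : ℕ → ℝ} {n m : ℕ} {J : Type} [Fintype J]

theorem ct_Cc (V : Wv k s l r n J) (j : J) : V.ct j ∈ CC k X 1 := N255.Wv.ct_Cc (V.mem j).1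

theorem span_ct (V : Wv k s l r n J) (h : Lr l r) (b : Bool) (hm : m < n) {φ : Co k 1 X}
    (hφ : φ ∈ ZP k (Bs s l r b (m + 1)) k 1) : ∃ x : J → k,
      (∀ j, x j ≠ 0 → V.sd j = b ∧ V.sc j ≤ m) ∧
      φ - ∑ j, x j • V.ct j ∈ BP k (Bs s l r b (m + 2)) k 1 := by
  obtain ⟨x, h1, h2⟩ := V.span b m hm φ hφ
  refine ⟨x, h1, ?_⟩
  have : φ - ∑ j, x j • V.ct j = φ - ∑ j, x j • V.h j - ∑ j, x j • (V.ct j - V.h j) := by
    simp only [smul_sub, Finset.sum_sub_distrib]; abel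
  rw [this]
  refine sub_mem h2 (van_le_BP (sum_mem fun j _ => ?_))
  by_cases q : x j = 0
  · simp [q]
  · obtain ⟨rfl, e⟩ := h1 j q
    exact smul_mem _ _ (van_mono (h.Bs_anti (by omega)) N255.Wv.ct_sub)

theorem span_zw (V : Wv k s l r n J) (h : Lr l r) (o : Ov 𝒞) (h2 : Hc0 k X k 2) (hm : m + 1 < n)
    {c : Co k 1 X} (hc : c ∈ CC k X 1) (hz : cob k c ∈ (Zw 𝒞 s l r n (m + 1)).van k k 2) :
    ∃ x : J → k, (∀ j, x j ≠ 0 → V.sc j ≤ m) ∧ ∃ η ∈ CC k X 0,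
      c - ∑ j, x j • V.ct j - cob k η ∈ (Zw 𝒞 s l r n (m + 2)).van k k 1 := by
  have h3 : exs k (cz 𝒞 s l r n (m + 1)) c ∈ ZP k (win s (l (m + 1)) (r (m + 1))) k 1 :=
    ⟨exs_Cc hc, exs_Z (cz_op o.1) (h.cz_cov (o.2 ▸ subset_rfl) hm.le)
      (Sb.Z_mono Sb.inf_le_right hz)⟩
  rw [win_eq] at h3
  obtain ⟨b, hb, ha⟩ := mv_surj isOpen_lo isOpen_hi (lo_union_hi (h.lt _ _)) h2 h3
  obtain ⟨x, x1, x2⟩ := span_ct V h true (by omega : m < n) ha
  obtain ⟨y, y1, y2⟩ := span_ct V h false (by omega : m < n) hb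
  obtain ⟨η, e1, e2⟩ := mem_BP.1 (add_mem (BP_mono (U := win s (l (m + 2)) (r (m + 2)))
    win_sub_Bs x2) (BP_mono win_sub_Bs y2))
  refine ⟨x + y, fun j q => ?_, η, e1, ?_⟩
  · by_contra q'
    have a1 : x j = 0 := by_contra fun e => q' (x1 j e).2
    have a2 : y j = 0 := by_contra fun e => q' (y1 j e).2
    exact q (by simp [a1, a2])
  · have := sub_mem (Sb.van_mono ((h.Zw_le (𝒞 := 𝒞) hm).trans Sb.inf_le_left) e2)
      (Sb.van_mono (Zw_anti (Nat.le_succ _)) (exs_sub (k := k) (θ := c)))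
    convert this using 1
    simp only [Pi.add_apply, add_smul, Finset.sum_add_distrib]; abel

/-- normal forms `E`, located parametrix `H` and coefficient functionals `lam` of a wall -/
structure Nf (𝒞 : Set (Set X)) (V : Wv k s l r n J) (H : Co k 2 X →ₗ[k] Co k 1 X)
    (lam : J → Dual k (Co k 2 X)) (E : Submodule k (Co k 2 X)) : Prop where
  cc : ∀ f, H f ∈ Cc k univ k 1
  nf : ∀ f, f - cob k (H f) - ∑ j, lam j f • cob k (V.ct j) ∈ E
  zn : ∀ z ≤ 2 * n, ∀ e ∈ E, ∀ θ ∈ Cc k (univ : Set X) k 1,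
    e - cob k θ ∈ (Zs 𝒞 s l r n z).van k k 2 → e ∈ (Zs 𝒞 s l r n z).van k k 2
  low : (Zw 𝒞 s l r n 0).van k k 2 ≤ E
  zero : ∀ f ∈ (Zw 𝒞 s l r n 0).van k k 2, H f = 0 ∧ ∀ j, lam j f = 0
  fl : ∀ m < n, ∀ f ∈ (Zw 𝒞 s l r n m).van k k 2,
    H f ∈ (Zw 𝒞 s l r n (m + 1)).van k k 1 ∧ ∀ j, m ≤ V.sc j → lam j f = 0

theorem st_iff {E A : Submodule k (Co k 2 X)} : St (cob k) (CC k X 1) LinearMap.id E A ↔
    ∀ e ∈ E, ∀ θ ∈ CC k X 1, e - cob k θ ∈ A → e ∈ A :=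
  ⟨fun h e he θ hθ q => h ⟨he, mem_sup.2 ⟨_, ⟨θ, hθ, rfl⟩, _, q, by simp⟩⟩, fun h e ⟨he, q⟩ => by
    obtain ⟨_, ⟨θ, hθ, rfl⟩, a, ha, q⟩ := mem_sup.1 q
    exact h e he θ hθ (by rw [← q]; simpa using ha)⟩

theorem exists_E (h : Lr l r) (o : Ov 𝒞) (h2 : Hc0 k X k 2) (s : C(X, ℝ)) (n : ℕ) :
    ∃ E : Submodule k (Co k 2 X), (∀ f, ∃ c ∈ CC k X 1, f - cob k c ∈ E) ∧
      (∀ z ≤ 2 * n, ∀ e ∈ E, ∀ θ ∈ CC k X 1,
        e - cob k θ ∈ (Zs 𝒞 s l r n z).van k k 2 → e ∈ (Zs 𝒞 s l r n z).van k k 2) ∧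
      (Zw 𝒞 s l r n 0).van k k 2 ≤ E := by
  obtain ⟨E, e1, e2, -, e3⟩ := lemE_phi' (k := k) (cv := 𝒞) (P := LinearMap.id)
    (O := fun z : Fin (2 * n + 1) => Oz s (za l r n) (zb l r n) z)
    (D := fun t : Fin (2 * n) => Dz s (za l r n) (zb l r n) t)
    (fun t t' q => Set.disjoint_left.2 fun x hx hx' => by
      have := t.2
      have := t'.2
      rcases lt_or_gt_of_ne (fun e => q (Fin.ext e) : t.1 ≠ t'.1) with q | q
      · linarith [hx.2, hx'.1, h.zb_le_za (n := n) (by omega : t.1 + 2 ≤ t'.1 + 1) (by omega)]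
      · linarith [hx.1, hx'.2, h.zb_le_za (n := n) (by omega : t'.1 + 2 ≤ t.1 + 1) (by omega)])
    (ct_chain o h2 s.continuous (fun _ _ => h.za_mono) (fun _ _ => h.zb_mono) _
      fun _ => h.za_succ_lt) (fun _ _ q => q) (by simp)
  refine ⟨E, fun f => ex_nf (e1 f), fun z hz => st_iff.1 (e2 ⟨z, Nat.lt_succ_of_le hz⟩),
    fun f hf => e3 ⟨(mem_iInf _).2 fun t => ?_, (mem_iInf _).2 fun z =>
      van_Zw.1 hf z (mem_Tw0.2 (Nat.le_of_lt_succ z.2))⟩⟩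
  exact vo_mono (V := zo s l r n t) (fun x hx => ⟨(h.za_mono t.1.le_succ).trans_lt hx.1, hx.2⟩)
    (van_Zw.1 hf t (mem_Tw0.2 t.2.le))

theorem exists_nf (h : Lr l r) (o : Ov 𝒞) (h2 : Hc0 k X k 2) (V : Wv k s l r n J) :
    ∃ H lam E, Nf 𝒞 V H lam E := by
  obtain ⟨E, e1, e2, e3⟩ := exists_E h o h2 s n
  have e4 : ∀ m, ∀ f ∈ (Zw 𝒞 s l r n m).van k k 2, ∀ c ∈ CC k X 1, f - cob k c ∈ E →
      cob k c ∈ (Zw 𝒞 s l r n m).van k k 2 := fun m f hf c hc q => van_Zw.2 fun z hz => by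
    have := sub_mem (van_Zw.1 hf z hz) (e2 z (Tw_le hz) _ q (-c) (neg_mem hc)
      (by simpa using van_Zw.1 hf z hz))
    simpa using this
  obtain ⟨S, h3, h4⟩ := exists_rel (Gr (cob k ∘ₗ LinearMap.fst k (Co k 1 X) (J → k) +
      Fintype.linearCombination k (fun j => cob k (V.ct j)) ∘ₗ LinearMap.snd k _ _)
      ((CC k X 1).prod ⊤) LinearMap.id E) (V := fun m => (Zw 𝒞 s l r n m).van k k 2)
    (W := fun m => (if m = 0 then ⊥ else (Zw 𝒞 s l r n (m + 1)).van k k 1).prod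
      (Submodule.pi {j | m ≤ V.sc j} fun _ => ⊥))
    (fun _ _ q => Sb.van_mono (Zw_anti q))
    (fun a b q => Submodule.prod_mono (by
      split_ifs with h1 h2
      exacts [le_rfl, bot_le, by omega, Sb.van_mono (Zw_anti (Nat.succ_le_succ q))])
      fun x hx => mem_pi.2 fun j hj => mem_pi.1 hx j (q.trans hj)) (max n 1)
    (fun f => let ⟨c, q1, q2⟩ := e1 f; ⟨(c, 0), mem_Gr.2 ⟨Submodule.mem_prod.2 ⟨q1, mem_top⟩, by
      simpa using q2⟩⟩)
    fun m hm f hf => by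
      rcases m with - | m
      · exact ⟨0, zero_mem _, mem_Gr.2 ⟨zero_mem _, by simpa using e3 hf⟩⟩
      obtain ⟨c, q1, q2⟩ := e1 f
      obtain ⟨x, x1, η, x2, x3⟩ := span_zw V h o h2 (by omega) q1 (e4 _ f hf c q1 q2)
      refine ⟨(_, x), ⟨by simpa using x3, fun j hj => by_contra fun q =>
        absurd (x1 j q) (by simpa using hj)⟩, mem_Gr.2 ⟨⟨sub_mem (sub_mem q1
          (sum_mem fun j _ => smul_mem _ _ (ct_Cc V j))) (cob_mem_Cc x2), trivial⟩, ?_⟩⟩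
      simpa [Fintype.linearCombination_apply, cob_cob] using q2
  refine ⟨LinearMap.fst _ _ _ ∘ₗ S, fun j => LinearMap.proj j ∘ₗ LinearMap.snd _ _ _ ∘ₗ S, E,
    fun f => (mem_Gr.1 (h3 f)).1.1, fun f => ?_, e2, e3, fun f hf => ?_, fun m hm f hf => ?_⟩
  · simpa [Fintype.linearCombination_apply, _root_.sub_sub] using (mem_Gr.1 (h3 f)).2
  · have := h4 0 (by omega) f hf
    exact ⟨by simpa using this.1, fun j => this.2 j (Nat.zero_le _)⟩
  · have := h4 m (by omega) f hf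
    refine ⟨?_, this.2⟩
    have q := this.1
    split_ifs at q
    exacts [by rw [LinearMap.comp_apply, LinearMap.fst_apply, (mem_bot k).1 q]; exact zero_mem _, q]

variable {V : Wv k s l r n J} {H : Co k 2 X →ₗ[k] Co k 1 X} {lam : J → Dual k (Co k 2 X)}
  {E : Submodule k (Co k 2 X)}

theorem Nf.rev (N : Nf 𝒞 V H lam E) (hs : ∀ x, s' x = 1 - s x) (hl : ∀ m, l' m = 1 - r m)
    (hr : ∀ m, r' m = 1 - l m) : Nf 𝒞 (V.rev hs hl hr) H lam E where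
  cc := N.cc
  nf f := by simpa only [V.rev_ct] using N.nf f
  zn z hz := by rw [Zs_rev hs hl hr hz]; exact N.zn _ (Nat.sub_le _ _)
  low := by rw [Zw_rev hs hl hr]; exact N.low
  zero := by rw [Zw_rev hs hl hr]; exact N.zero
  fl m hm := by rw [Zw_rev hs hl hr, Zw_rev hs hl hr]; exact N.fl m hm

/-- the full parametrix -/
noncomputable def Hp (V : Wv k s l r n J) (H : Co k 2 X →ₗ[k] Co k 1 X)
    (lam : J → Dual k (Co k 2 X)) : Co k 2 X →ₗ[k] Co k 1 X := H + ∑ j, (lam j).smulRight (V.ct j)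

theorem Hp_apply (f : Co k 2 X) : Hp V H lam f = H f + ∑ j, lam j f • V.ct j := by simp [Hp]

theorem Nf.par (N : Nf 𝒞 V H lam E) : Par (cob k) (CC k X 1) LinearMap.id E (Hp V H lam) :=
  ⟨fun f => Hp_apply (V := V) f ▸ add_mem (N.cc f) (sum_mem fun j _ => smul_mem _ _ (ct_Cc V j)),
    fun f => by simpa [Hp_apply, _root_.sub_sub] using N.nf f⟩

theorem Nf.zw (N : Nf 𝒞 V H lam E) (m : ℕ) {e : Co k 2 X} (he : e ∈ E) {θ : Co k 1 X}
    (hθ : θ ∈ Cc k univ k 1) (h : e - cob k θ ∈ (Zw 𝒞 s l r n m).van k k 2) :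
    e ∈ (Zw 𝒞 s l r n m).van k k 2 :=
  van_Zw.2 fun z hz => N.zn z (Tw_le hz) e he θ hθ (van_Zw.1 h z hz)

end wall

section vertex
variable {ι : Type} {s : ι → C(X, ℝ)} {l r : ι → ℕ → ℝ} {n : ι → ℕ} {J : ι → Type}
  [∀ i, Fintype (J i)]

/-- the core of a vertex -/
def Oc (s : ι → C(X, ℝ)) (l : ι → ℕ → ℝ) : Set X := ⋂ i, lo (s i) (l i 2)

/-- the part of a wall beyond the level `l 2` -/
def Wr (𝒞 : Set (Set X)) (s : C(X, ℝ)) (l r : ℕ → ℝ) (n : ℕ) : Sb X :=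
  (Zw 𝒞 s l r n 0).inf (On (hi s (l 2)))

theorem Zw_le_Wr {s : C(X, ℝ)} {l r : ℕ → ℝ} {n m : ℕ} (h : Lr l r) (h2 : 2 ≤ m) (hm : m ≤ n) :
    (Zw 𝒞 s l r n m).Le (Wr 𝒞 s l r n) := fun d _ hσ => ⟨Zw_anti m.zero_le d hσ,
  ((h.Zw_le hm d hσ).1.trans win_hi).trans (hi_mono (h.l_le h2))⟩

/-- normal forms `EG` and full parametrix `HG` of a vertex -/
structure Vf (𝒞 : Set (Set X)) (V : ∀ i, Wv k (s i) (l i) (r i) (n i) (J i))
    (H : ι → Co k 2 X →ₗ[k] Co k 1 X) (lam : ∀ i, J i → Dual k (Co k 2 X))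
    (E : ι → Submodule k (Co k 2 X)) (HG : Co k 2 X →ₗ[k] Co k 1 X)
    (mu : ∀ i, J i → Dual k (Co k 2 X)) (EG : Submodule k (Co k 2 X)) : Prop where
  cc : ∀ f, HG f ∈ Cc k univ k 1
  nf : ∀ f, f - cob k (HG f) ∈ EG
  core : ∀ e ∈ EG, ∀ θ ∈ Cc k (univ : Set X) k 1,
    e - cob k θ ∈ vo k 𝒞 (Oc s l) 2 → e ∈ vo k 𝒞 (Oc s l) 2
  zn : ∀ i, ∀ z ≤ 2 * n i, ∀ e ∈ EG, ∀ θ ∈ Cc k (univ : Set X) k 1,
    e - cob k θ ∈ (Zs 𝒞 (s i) (l i) (r i) (n i) z).van k k 2 →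
      e ∈ (Zs 𝒞 (s i) (l i) (r i) (n i) z).van k k 2
  le : ∀ i, EG ≤ E i ⊔ (Zw 𝒞 (s i) (l i) (r i) (n i) 0).van k k 2
  low : ∀ f ∈ vo k 𝒞 (Oc s l) 2, (∀ i, f ∈ (Zw 𝒞 (s i) (l i) (r i) (n i) 0).van k k 2) →
    f ∈ EG ∧ HG f = 0 ∧ ∀ i j, mu i j f = 0
  agr : ∀ i f, HG f - H i f - ∑ j, (lam i j f + mu i j f) • (V i).ct j ∈
    (Wr 𝒞 (s i) (l i) (r i) (n i)).van k k 1
  mu0 : ∀ i j, mu i j ≠ 0 → (V i).sd j = false ∧ (V i).sc j = 0

theorem exists_vf [Finite ι] (h : ∀ i, Lr (l i) (r i)) (o : Ov 𝒞) (h2 : Hc0 k X k 2)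
    (hn : ∀ i, 0 < n i)
    (hd : Pairwise fun i j => Disjoint (hi (s i) (l i 0)) (hi (s j) (l j 0)))
    {V : ∀ i, Wv k (s i) (l i) (r i) (n i) (J i)} {H : ι → Co k 2 X →ₗ[k] Co k 1 X}
    {lam : ∀ i, J i → Dual k (Co k 2 X)} {E : ι → Submodule k (Co k 2 X)}
    (N : ∀ i, Nf 𝒞 (V i) (H i) (lam i) (E i)) : ∃ HG mu EG, Vf 𝒞 V H lam E HG mu EG := by
  classical
  have := Fintype.ofFinite ι
  have sep : ∀ {i j}, i ≠ j → ∀ {t}, l j 0 < t → hi (s i) (l i 0) ⊆ lo (s j) t :=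
    fun q t ht x hx => (not_lt.1 (Set.disjoint_left.1 (hd q) hx)).trans_lt ht
  have zw : ∀ i {U : Set X}, win (s i) (l i 0) (r i 0) ⊆ U → ∀ d, (On U).van k k d ≤
      (Zw 𝒞 (s i) (l i) (r i) (n i) 0).van k k d := fun i U q d =>
    Sb.van_mono (((h i).Zw_le (Nat.zero_le _)).trans (Sb.inf_le_left.trans (On_le q)))
  have W : Wal (cob k) (CC k X 1) LinearMap.id (fun _ => LinearMap.id)
      (fun i => (Zw 𝒞 (s i) (l i) (r i) (n i) 0).van k k 2)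
      fun i => (Zw 𝒞 (s i) (l i) (r i) (n i) 0).van k k 1 :=
    ⟨by simp, fun _ _ q => q, fun i c hc => Sb.cob_mem hc, fun c hc =>
      let ⟨c0, h1, h2⟩ := glue hd hc; ⟨c0, h1, fun i => zw i win_hi _ (h2 i)⟩⟩
  have st : ∀ i, ∀ z ≤ 2 * n i, St (cob k) (CC k X 1) LinearMap.id
      (⨅ i, E i ⊔ (Zw 𝒞 (s i) (l i) (r i) (n i) 0).van k k 2)
      ((Zs 𝒞 (s i) (l i) (r i) (n i) z).van k k 2) := fun i z hz =>
    W.st (Sb.van_mono (Zs_le_Zw (mem_Tw0.2 hz))) (st_iff.2 ((N i).zn z hz))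
  have dc : ∀ i, zo (s i) (l i) (r i) (n i) 0 ⊆ Oc s l := fun i => by
    rw [zo_lt (hn i)]
    refine subset_iInter fun j => ?_
    by_cases q : i = j
    · subst q; exact win_lo
    · exact win_hi.trans (sep q ((h j).ml (by omega)))
  have ct : Ct k 𝒞 (Oc s l) (fun i => zo (s i) (l i) (r i) (n i) 0)
      (range fun i => hi (s i) (l i 0)) :=
    ct_of o h2 Finset.univ (fun i => hi (s i) (l i 0)) (fun i => lo (s i) (l i 2))
      (fun _ _ => isOpen_hi) (fun _ _ => isOpen_lo)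
      (fun i _ => (union_comm _ _).trans (lo_union_hi ((h i).ml (by omega))))
      (fun i _ j _ q => sep q ((h j).ml (by omega)))
      (fun i _ => ⟨by rw [zo_lt (hn i)]; exact subset_rfl, dc i⟩)
      (fun i _ => iInter_subset _ i) (by rintro _ ⟨i, rfl⟩; exact ⟨i, by simp, subset_rfl⟩)
  obtain ⟨EG, e1, e2, e3, e4⟩ := lemE (ι := Unit)
    (E0 := ⨅ i, E i ⊔ (Zw 𝒞 (s i) (l i) (r i) (n i) 0).van k k 2)
    (B := ⨅ i, (Zw 𝒞 (s i) (l i) (r i) (n i) 0).van k k 2)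
    (R := (CC k X 1).map (LinearMap.id ∘ₗ cob k)) (A := fun _ => vo k 𝒞 (Oc s l) 2)
    (iInf_mono fun i => le_sup_right) (by
      rintro - _ ⟨c, hc, rfl⟩ hr
      obtain ⟨x, hx, a, ha, q⟩ := mem_sup.1 hr
      obtain ⟨c', q1, q2, q3⟩ := ct c hc fun i _ => by
        have : x ∈ _ := st i 0 (Nat.zero_le _) ⟨hx, by
          rw [eq_sub_of_add_eq q, sub_eq_add_neg]
          exact add_mem_sup ⟨c, hc, rfl⟩ (neg_mem (vo_mono (dc i) ha))⟩
        exact (show x + a = cob k c from q) ▸ add_mem this (vo_mono (dc i) ha)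
      exact ⟨_, ⟨c', q1, rfl⟩, (mem_iInf _).2 fun i σ hσ => q2 σ ⟨⟨_, ⟨i, rfl⟩,
        (((h i).Zw_le (Nat.zero_le _) _ hσ).1.trans win_hi)⟩, Zw_le_Sm _ hσ⟩,
        fun j hj => (hj rfl).elim, q3⟩)
  have low : ∀ f ∈ vo k 𝒞 (Oc s l) 2, (∀ i, f ∈ (Zw 𝒞 (s i) (l i) (r i) (n i) 0).van k k 2) →
      f ∈ EG := fun f a b => e2 ⟨(mem_iInf _).2 b, (mem_iInf _).2 fun _ => a⟩
  let G : Submodule k (Co k 2 X × Co k 1 X × ∀ i, J i → k) :=
    { carrier := {p | p.2.1 ∈ CC k X 1 ∧ p.1 - cob k p.2.1 ∈ EG ∧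
        (∀ i, p.2.1 - Hp (V i) (H i) (lam i) p.1 - ∑ j, p.2.2 i j • (V i).ct j ∈
          (Wr 𝒞 (s i) (l i) (r i) (n i)).van k k 1) ∧
        ∀ i j, ¬((V i).sd j = false ∧ (V i).sc j = 0) → p.2.2 i j = 0}
      zero_mem' := by simp
      add_mem' := fun {a b} ha hb => ⟨add_mem ha.1 hb.1, by
        convert add_mem ha.2.1 hb.2.1 using 1; simp only [Prod.fst_add, Prod.snd_add, map_add]; abel,
        fun i => by
          convert add_mem (ha.2.2.1 i) (hb.2.2.1 i) using 1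
          simp only [Prod.fst_add, Prod.snd_add, map_add, Pi.add_apply, add_smul,
            Finset.sum_add_distrib]; abel,
        fun i j q => by simp [ha.2.2.2 i j q, hb.2.2.2 i j q]⟩
      smul_mem' := fun c a ha => ⟨smul_mem _ c ha.1, by
        simpa [smul_sub] using smul_mem _ c ha.2.1, fun i => by
          simpa [smul_sub, Finset.smul_sum, mul_smul] using smul_mem _ c (ha.2.2.1 i),
        fun i j q => by simp [ha.2.2.2 i j q]⟩ }
  obtain ⟨S, s1, s2⟩ := exists_rel G (V := fun _ => vo k 𝒞 (Oc s l) 2 ⊓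
      ⨅ i, (Zw 𝒞 (s i) (l i) (r i) (n i) 0).van k k 2) (W := fun _ => ⊥) monotone_const
    monotone_const 1 (fun f => by
      obtain ⟨c0, q1, q2, q3⟩ := W.nf (fun i => (N i).par.mem f) fun i => (N i).par.nf f
      obtain ⟨c1, r1, r2⟩ := ex_nf (sup_le e3 le_sup_right (W.top (fun i => (N i).par)
        (f - cob k c0)))
      have z1 : ∀ i, cob k c1 ∈ (Zw 𝒞 (s i) (l i) (r i) (n i) 0).van k k 2 := fun i =>
        van_Zw.2 fun z hz => st i z (Tw_le hz) ⟨by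
          simpa using sub_mem q3 (e1 r2), mem_sup_left ⟨c1, r1, rfl⟩⟩
      have := fun i => mv_surj isOpen_lo isOpen_hi (lo_union_hi ((h i).lt 0 0)) h2
        (φ := exs k (cz 𝒞 (s i) (l i) (r i) (n i) 0) c1) (by
          rw [← win_eq]
          exact ⟨exs_Cc r1, exs_Z (cz_op o.1) ((h i).cz_cov (o.2 ▸ subset_rfl) (Nat.zero_le _))
            (Sb.Z_mono Sb.inf_le_right (z1 i))⟩)
      choose b hb ha using this
      set a := fun i => exs k (cz 𝒞 (s i) (l i) (r i) (n i) 0) c1 - b i with ea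
      have := fun i => span_ct (V i) (h i) false (hn i)
        (φ := b i - ∑ j ∈ Finset.univ.erase i, a j) (ZP_mono (hi_mono ((h i).l_le zero_le_one))
          (sub_mem (hb i) (sum_mem fun j hj => ZP_mono
            (sep (Finset.ne_of_mem_erase hj).symm ((h j).lt 0 0)) (ha j))))
      choose y y1 y2 using this
      choose η η1 η2 using fun i => mem_BP.1 (y2 i)
      obtain ⟨η0, b1, b2⟩ := glue (Z := fun i => hi (s i) (l i 2)) (fun i j q => (hd q).mono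
        (hi_mono ((h i).l_le (Nat.zero_le _))) (hi_mono ((h j).l_le (Nat.zero_le _)))) η1
      refine ⟨(c0 + c1 - ∑ i, a i - cob k η0, y), sub_mem (sub_mem (add_mem q1 r1)
        (sum_mem fun i _ => (ha i).1)) (cob_mem_Cc b1), ?_, fun i => ?_,
        fun i j q => by_contra fun e => q ⟨(y1 i j e).1, Nat.le_zero.1 (y1 i j e).2⟩⟩
      · have := add_mem r2 (sum_mem fun i (_ : i ∈ Finset.univ) => low (cob k (a i))
          (on_le ((iInter_subset _ i).trans (lo_mono ((h i).lt 2 0).le)) (ha i).2) fun j => by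
            by_cases q : j = i
            · subst q; exact zw j win_lo _ (ha j).2
            · exact zw j (win_hi.trans (sep q ((h i).lt 0 0))) _ (ha i).2)
        convert this using 1
        simp only [map_sub, map_add, map_sum, cob_cob, LinearMap.id_apply]; abel
      · have := sub_mem (add_mem (sub_mem (Sb.van_mono Sb.inf_le_left (q2 i))
          (Sb.van_mono (P := Wr 𝒞 (s i) (l i) (r i) (n i)) Sb.inf_le_left
            (exs_sub (k := k) (θ := c1)))) (Sb.van_mono Sb.inf_le_right (η2 i)))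
          (Sb.van_mono Sb.inf_le_right (Sb.cob_mem (b2 i)))
        convert this using 1
        · rfl
        show c0 + c1 - ∑ i, a i - cob k η0 - _ - ∑ j, y i j • (V i).ct j = _
        rw [← Finset.add_sum_erase _ a (Finset.mem_univ i), map_sub]
        have eb : exs k (cz 𝒞 (s i) (l i) (r i) (n i) 0) c1 = a i + b i := by simp [ea]
        rw [eb]; abel)
    fun _ _ f hf => ⟨0, zero_mem _, zero_mem _, by simpa using low f hf.1 ((mem_iInf _).1 hf.2),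
      fun i => by
        have := (N i).zero f ((mem_iInf _).1 hf.2 i)
        simp [Hp_apply, this.1, this.2], fun _ _ _ => rfl⟩
  refine ⟨LinearMap.fst _ _ _ ∘ₗ S, fun i j => LinearMap.proj j ∘ₗ LinearMap.proj i ∘ₗ
    LinearMap.snd _ _ _ ∘ₗ S, EG, fun f => (s1 f).1, fun f => (s1 f).2.1, st_iff.1 (e4 ()),
    fun i z hz => st_iff.1 ((st i z hz).mono e1), fun i => e1.trans (iInf_le _ i),
    fun f a b => ?_, fun i f => ?_, fun i j q => by_contra fun e =>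
      q (LinearMap.ext fun f => (s1 f).2.2.2 i j e)⟩
  · have : S f = 0 := s2 0 one_pos f ⟨a, (mem_iInf _).2 b⟩
    exact ⟨low f a b, by simp [this], fun i j => by simp [this]⟩
  · convert (s1 f).2.2.1 i using 1
    simp only [Hp_apply, add_smul, Finset.sum_add_distrib, LinearMap.comp_apply,
      LinearMap.fst_apply, LinearMap.snd_apply, LinearMap.proj_apply]; abel

end vertex

end Crest.Agent.N255.Le
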