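import Crest.Agent.N255.Le.Nf
/-!
# Row 255 (helper71): the vertex parametrix for arbitrary wall data (`Vg`)
-/
namespace Crest.Agent.N255.Le
open Submodule Set Tp Module Wn

variable {k : Type} [Field k] {X : Type} [TopologicalSpace X] {cv : Set (Set X)}
  {ι : Type} {J : ι → Type} [∀ i, Fintype (J i)]

/-- normal forms `EG` and full parametrix `HG` of a vertex with core `O`, wall zones `𝒵 i`, wall
parametrices `Hp i`; agreement on the zones inside `B i` up to the classes `ct i j` with `far i j` -/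
structure Vg (cv : Set (Set X)) (O : Set X) (𝒵 : ι → Set (Set X)) (B : ι → Set X)
    (ct : ∀ i, J i → Co k 1 X) (far : ∀ i, J i → Prop) (Hp : ι → Co k 2 X →ₗ[k] Co k 1 X)
    (E : ι → Submodule k (Co k 2 X)) (HG : Co k 2 X →ₗ[k] Co k 1 X)
    (mu : ∀ i, J i → Dual k (Co k 2 X)) (EG : Submodule k (Co k 2 X)) : Prop where
  cc : ∀ f, HG f ∈ CC k X 1
  nf : ∀ f, f - cob k (HG f) ∈ EG
  core : ∀ e ∈ EG, ∀ θ ∈ CC k X 1, e - cob k θ ∈ vo k cv O 2 → e ∈ vo k cv O 2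
  zn : ∀ i, ∀ U ∈ 𝒵 i, ∀ e ∈ EG, ∀ θ ∈ CC k X 1, e - cob k θ ∈ vo k cv U 2 → e ∈ vo k cv U 2
  le : ∀ i, EG ≤ E i ⊔ vs k cv (𝒵 i) 2
  low : ∀ f ∈ vo k cv O 2, (∀ i, f ∈ vs k cv (𝒵 i) 2) → f ∈ EG
  zero : ∀ f ∈ vo k cv O 2, (∀ i, f ∈ vs k cv (𝒵 i) 2 ∧ Hp i f = 0) →
    HG f = 0 ∧ ∀ i j, mu i j f = 0
  agr : ∀ i f, ∀ U ∈ 𝒵 i, HG f - Hp i f - ∑ j, mu i j f • ct i j ∈ vo k cv (U ∩ B i) 1
  mu0 : ∀ i j, mu i j ≠ 0 → far i j

theorem Vg.agr' {O : Set X} {𝒵 : ι → Set (Set X)} {B : ι → Set X} {ct : ∀ i, J i → Co k 1 X}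
    {far : ∀ i, J i → Prop} {Hp : ι → Co k 2 X →ₗ[k] Co k 1 X} {E : ι → Submodule k (Co k 2 X)}
    {HG : Co k 2 X →ₗ[k] Co k 1 X} {mu : ∀ i, J i → Dual k (Co k 2 X)} {EG : Submodule k (Co k 2 X)}
    (h : Vg cv O 𝒵 B ct far Hp E HG mu EG) (i : ι) {𝒱 : Set (Set X)} (h1 : 𝒱 ⊆ 𝒵 i)
    (h2 : ∀ U ∈ 𝒱, U ⊆ B i) (f : Co k 2 X) :
    HG f - Hp i f - ∑ j, mu i j f • ct i j ∈ vs k cv 𝒱 1 :=
  fun σ ⟨⟨U, hU, q⟩, q'⟩ => h.agr i f U (h1 hU) σ ⟨subset_inter q (q.trans (h2 U hU)), q'⟩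

set_option maxHeartbeats 800000 in
theorem exists_vg [Finite ι] (o : Ov cv) (h2 : Hc0 k X k 2) {s : ι → C(X, ℝ)} {a c b : ι → ℝ}
    (hac : ∀ i, a i < c i) (hcb : ∀ i, c i ≤ b i)
    (hd : Pairwise fun i j => Disjoint (hi (s i) (a i)) (hi (s j) (a j)))
    {𝒵 : ι → Set (Set X)} (op : ∀ i, ∀ U ∈ 𝒵 i, IsOpen U)
    (hU : ∀ i, ⋃₀ 𝒵 i = win (s i) (a i) (b i)) (hD : ∀ i, win (s i) (a i) (c i) ∈ 𝒵 i)
    {ct : ∀ i, J i → Co k 1 X} {far : ∀ i, J i → Prop} {Hp : ι → Co k 2 X →ₗ[k] Co k 1 X}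
    {E : ι → Submodule k (Co k 2 X)} (hc : ∀ i f, Hp i f ∈ CC k X 1)
    (hn : ∀ i f, f - cob k (Hp i f) ∈ E i)
    (s1 : ∀ i, ∀ U ∈ 𝒵 i, ∀ f ∈ E i, ∀ θ ∈ CC k X 1, f - cob k θ ∈ vo k cv U 2 → f ∈ vo k cv U 2)
    (sp : ∀ i, ∀ φ ∈ ZP k (hi (s i) (a i)) k 1, ∃ x : J i → k, (∀ j, x j ≠ 0 → far i j) ∧
      φ - ∑ j, x j • ct i j ∈ BP k (hi (s i) (c i)) k 1) :
    ∃ HG mu EG, Vg cv (⋂ i, lo (s i) (c i)) 𝒵 (fun i => hi (s i) (c i)) ct far Hp E HG mu EG := by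
  classical
  have := Fintype.ofFinite ι
  have par : ∀ i, Par (cob k) (CC k X 1) LinearMap.id (E i) (Hp i) := fun i => ⟨hc i, hn i⟩
  have hab : ∀ i, a i < b i := fun i => (hac i).trans_le (hcb i)
  have sep : ∀ {i j}, i ≠ j → ∀ {t}, a j < t → hi (s i) (a i) ⊆ lo (s j) t :=
    fun q t ht x hx => (not_lt.1 (Set.disjoint_left.1 (hd q) hx)).trans_lt ht
  have zw : ∀ i {U : Set X}, win (s i) (a i) (b i) ⊆ U → ∀ d, (On U).van k k d ≤
      vs k cv (𝒵 i) d := fun i U q d => (on_le q).trans (vo_le (hU i).le)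
  have W : Wal (cob k) (CC k X 1) LinearMap.id (fun _ => LinearMap.id)
      (fun i => vs k cv (𝒵 i) 2) fun i => vs k cv (𝒵 i) 1 :=
    ⟨by simp, fun _ _ q => q, fun i c hc => Sb.cob_mem hc, fun c hc =>
      let ⟨c0, h1, h2⟩ := glue hd hc; ⟨c0, h1, fun i => zw i win_hi _ (h2 i)⟩⟩
  have st : ∀ i, ∀ U ∈ 𝒵 i, St (cob k) (CC k X 1) LinearMap.id (⨅ i, E i ⊔ vs k cv (𝒵 i) 2)
      (vo k cv U 2) := fun i U hz => W.st (vs_le hz subset_rfl) (st_iff.2 (s1 i U hz))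
  have dc : ∀ i, win (s i) (a i) (c i) ⊆ ⋂ i, lo (s i) (c i) := fun i => by
    refine subset_iInter fun j => ?_
    by_cases q : i = j
    · subst q; exact win_lo
    · exact win_hi.trans (sep q (hac j))
  have ct' : Ct k cv (⋂ i, lo (s i) (c i)) (fun i => win (s i) (a i) (c i))
      (range fun i => hi (s i) (a i)) :=
    ct_of o h2 Finset.univ (fun i => hi (s i) (a i)) (fun i => lo (s i) (c i))
      (fun _ _ => isOpen_hi) (fun _ _ => isOpen_lo)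
      (fun i _ => (union_comm _ _).trans (lo_union_hi (hac i)))
      (fun i _ j _ q => sep q (hac j)) (fun i _ => ⟨subset_rfl, dc i⟩)
      (fun i _ => iInter_subset _ i) (by rintro _ ⟨i, rfl⟩; exact ⟨i, by simp, subset_rfl⟩)
  obtain ⟨EG, e1, e2, e3, e4⟩ := lemE (ι := Unit) (E0 := ⨅ i, E i ⊔ vs k cv (𝒵 i) 2)
    (B := ⨅ i, vs k cv (𝒵 i) 2) (R := (CC k X 1).map (LinearMap.id ∘ₗ cob k))
    (A := fun _ => vo k cv (⋂ i, lo (s i) (c i)) 2) (iInf_mono fun i => le_sup_right) (by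
      rintro - _ ⟨γ, hc, rfl⟩ hr
      obtain ⟨x, hx, α, ha, q⟩ := mem_sup.1 hr
      obtain ⟨c', q1, q2, q3⟩ := ct' γ hc fun i _ => by
        have : x ∈ _ := st i _ (hD i) ⟨hx, by
          rw [eq_sub_of_add_eq q, sub_eq_add_neg]
          exact add_mem_sup ⟨γ, hc, rfl⟩ (neg_mem (vo_mono (dc i) ha))⟩
        exact (show x + α = cob k γ from q) ▸ add_mem this (vo_mono (dc i) ha)
      exact ⟨_, ⟨c', q1, rfl⟩, (mem_iInf _).2 fun i => vo_le ((hU i).le.trans win_hi)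
        (vs_le (mem_range_self (f := fun i => hi (s i) (a i)) i) subset_rfl q2), fun j hj => (hj rfl).elim, q3⟩)
  have low : ∀ f ∈ vo k cv (⋂ i, lo (s i) (c i)) 2, (∀ i, f ∈ vs k cv (𝒵 i) 2) → f ∈ EG :=
    fun f a b => e2 ⟨(mem_iInf _).2 b, (mem_iInf _).2 fun _ => a⟩
  let G : Submodule k (Co k 2 X × Co k 1 X × ∀ i, J i → k) :=
    { carrier := {p | p.2.1 ∈ CC k X 1 ∧ p.1 - cob k p.2.1 ∈ EG ∧
        (∀ i, ∀ U ∈ 𝒵 i, p.2.1 - Hp i p.1 - ∑ j, p.2.2 i j • ct i j ∈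
          vo k cv (U ∩ hi (s i) (c i)) 1) ∧ ∀ i j, ¬far i j → p.2.2 i j = 0}
      zero_mem' := by simp
      add_mem' := fun {a b} ha hb => ⟨add_mem ha.1 hb.1, by
        convert add_mem ha.2.1 hb.2.1 using 1; simp only [Prod.fst_add, Prod.snd_add, map_add]; abel,
        fun i U hU => by
          convert add_mem (ha.2.2.1 i U hU) (hb.2.2.1 i U hU) using 1
          simp only [Prod.fst_add, Prod.snd_add, map_add, Pi.add_apply, add_smul,
            Finset.sum_add_distrib]; abel,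
        fun i j q => by simp [ha.2.2.2 i j q, hb.2.2.2 i j q]⟩
      smul_mem' := fun c a ha => ⟨smul_mem _ c ha.1, by
        simpa [smul_sub] using smul_mem _ c ha.2.1, fun i U hU => by
          simpa [smul_sub, Finset.smul_sum, mul_smul] using smul_mem _ c (ha.2.2.1 i U hU),
        fun i j q => by simp [ha.2.2.2 i j q]⟩ }
  obtain ⟨S, s1, s2⟩ := exists_rel G (V := fun _ => vo k cv (⋂ i, lo (s i) (c i)) 2 ⊓
      ⨅ i, vs k cv (𝒵 i) 2 ⊓ LinearMap.ker (Hp i)) (W := fun _ => ⊥) monotone_const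
    monotone_const 1 (fun f => by
      obtain ⟨c0, q1, q2, q3⟩ := W.nf (fun i => hc i f) fun i => (par i).nf f
      obtain ⟨c1, r1, r2⟩ := ex_nf (sup_le e3 le_sup_right (W.top par (f - cob k c0)))
      have z1 : ∀ i, cob k c1 ∈ vs k cv (𝒵 i) 2 := fun i => St.vs (st i) ⟨by
        simpa using sub_mem q3 (e1 r2), mem_sup_left ⟨c1, r1, rfl⟩⟩
      choose c2 z2 z3 using fun i => exists_zp o (op i) r1 (z1 i)
      have := fun i => mv_surj isOpen_lo isOpen_hi (lo_union_hi (hab i)) h2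
        (φ := c2 i) (by rw [← win_eq, ← hU]; exact z2 i)
      choose β hb ha using this
      have := fun i => sp i (β i - ∑ j ∈ Finset.univ.erase i, (c2 j - β j))
        (sub_mem (hb i) (sum_mem fun j hj => ZP_mono
          (sep (Finset.ne_of_mem_erase hj).symm (hab j)) (ha j)))
      choose y y1 y2 using this
      choose η η1 η2 using fun i => mem_BP.1 (y2 i)
      obtain ⟨η0, b1, b2⟩ := glue (Z := fun i => hi (s i) (c i)) (fun i j q => (hd q).mono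
        (hi_mono (hac i).le) (hi_mono (hac j).le)) η1
      refine ⟨(c0 + c1 - ∑ i, (c2 i - β i) - cob k η0, y), sub_mem (sub_mem (add_mem q1 r1)
        (sum_mem fun i _ => (ha i).1)) (cob_mem_Cc b1), ?_, fun i U hU => ?_,
        fun i j q => by_contra fun e => q (y1 i j e)⟩
      · have := add_mem r2 (sum_mem fun i (_ : i ∈ Finset.univ) => low (cob k (c2 i - β i))
          (on_le ((iInter_subset _ i).trans (lo_mono (hcb i))) (ha i).2) fun j => by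
            by_cases q : j = i
            · subst q; exact zw j win_lo _ (ha j).2
            · exact zw j (win_hi.trans (sep q (hab i))) _ (ha i).2)
        convert this using 1
        simp only [map_sub, map_add, map_sum, cob_cob, LinearMap.id_apply]; abel
      · have := sub_mem (add_mem (vs_le (V := U ∩ hi (s i) (c i)) hU inter_subset_left
          (sub_mem (q2 i) (z3 i))) (on_le inter_subset_right (η2 i)))
          (on_le inter_subset_right (Sb.cob_mem (b2 i)))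
        convert this using 1
        show c0 + c1 - ∑ i, (c2 i - β i) - cob k η0 - _ - ∑ j, y i j • ct i j = _
        rw [← Finset.add_sum_erase _ (fun i => c2 i - β i) (Finset.mem_univ i), map_sub]
        abel)
    fun _ _ f hf => ⟨0, zero_mem _, zero_mem _, by
      simpa using low f hf.1 fun i => ((mem_iInf _).1 hf.2 i).1, fun i U _ => by
        have : Hp i f = 0 := ((mem_iInf _).1 hf.2 i).2
        simp [this], fun _ _ _ => rfl⟩
  refine ⟨LinearMap.fst _ _ _ ∘ₗ S, fun i j => LinearMap.proj j ∘ₗ LinearMap.proj i ∘ₗ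
    LinearMap.snd _ _ _ ∘ₗ S, EG, fun f => (s1 f).1, fun f => (s1 f).2.1, st_iff.1 (e4 ()),
    fun i z hz => st_iff.1 ((st i z hz).mono e1), fun i => e1.trans (iInf_le _ i), low,
    fun f a b => ?_, fun i f U hU => by simpa using (s1 f).2.2.1 i U hU, fun i j q => by_contra fun e =>
      q (LinearMap.ext fun f => (s1 f).2.2.2 i j e)⟩
  have : S f = 0 := s2 0 one_pos f ⟨a, (mem_iInf _).2 b⟩
  exact ⟨by simp [this], fun i j => by simp [this]⟩

end Crest.Agent.N255.Le
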