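import Crest.Agent.N255.Le.Vg
import Crest.Agent.N255.Wz.Sys
import Crest.Agent.N255.Ma.Vd
/-!
# Row 255 (helper71): the vertex parametrix `Ma.VF` exists
-/
namespace Crest.Agent.N255.Le
open Submodule Set Tp Module Wn Ma Pt En

variable {F : Subgroup F3} {S : Type} [MulAction F3 S] {X : Type} [TopologicalSpace X]
  [MulAction F X] [ContinuousConstSMul F X] {k : Type} [Field k] {g : Geo F k S X} {u R₀ : ℝ} {n : ℕ}

theorem geo_ov (g : Geo F k S X) : Ov g.E.cv := ⟨g.E.cv_open, univ_subset_iff.1 g.E.cv_cover⟩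

section wall
variable {J : Type} [Fintype J] {τ : Ty J} {e : Ed (Fin 3)} {o : Bool} (ω : Wd g u R₀ n τ e o)

theorem wd_pos : 0 < ω.l 0 := ω.u0.trans (ω.ua.trans_lt ω.al)

theorem wd_span (hn : 0 < n) {φ : Co k 1 X} (hφ : φ ∈ ZP k (hi (g.E.s e) (ω.l 0)) k 1) :
    ∃ x : J → k, (∀ j, x j ≠ 0 → τ.kd j ≠ o ∧ τ.sc j = 0) ∧
      φ - ∑ j, x j • ω.ct j ∈ BP k (hi (g.E.s e) (ω.l 2)) k 1 := by
  obtain ⟨x, h1, h2⟩ := ω.span false 0 hn φ (ZP_mono (hi_mono (ω.win.ml.monotone zero_le_one)) hφ)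
  refine ⟨x, fun j q => ⟨by simpa using (h1 j q).1, Nat.le_zero.1 (h1 j q).2⟩, ?_⟩
  have : φ - ∑ j, x j • ω.ct j = φ - ∑ j, x j • ω.h j - ∑ j, x j • (ω.ct j - ω.h j) := by
    simp only [smul_sub, Finset.sum_sub_distrib]; abel
  rw [this]
  refine sub_mem h2 (van_le_BP (sum_mem fun j _ => ?_))
  by_cases q : x j = 0
  · simp [q]
  · refine smul_mem _ _ (van_mono ?_ N255.Wv.ct_sub)
    rw [(h1 j q).1, Nat.le_zero.1 (h1 j q).2]
    exact hi_mono (ω.win.ml.monotone one_le_two)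

theorem wd_hp_mem (f : Co k 2 X) : ω.Hp f ∈ CC k X 1 := by
  rw [ω.Hp_apply]
  exact add_mem (ω.nf.mem f) (sum_mem fun j _ => smul_mem _ _ (N255.Wv.ct_Cc (ω.mem j).1))

theorem wd_hp_nf (f : Co k 2 X) : f - cob k (ω.Hp f) ∈ ω.E := by
  simpa [ω.Hp_apply, _root_.sub_sub] using ω.nf'.nf f

theorem wd_hp_zero (hn : 0 < n) {f : Co k 2 X} (h : f ∈ vs k g.E.cv (ω.Z 0) 2) : ω.Hp f = 0 := by
  simp [ω.Hp_apply, ω.nf'.zero f h, fun j => (ω.nf'.fl2 0 hn f h).2 j (Nat.zero_le _)]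

end wall

variable {J : Fin 3 → Type} [∀ i, Fintype (J i)] {τ : ∀ i, Ty (J i)} {v : F3} {h o : Fin 3 → Bool}

theorem exists_VF (h2 : Hc0 k X k 2) (hn : 0 < n)
    (ω : ∀ i, Wd g u R₀ n (τ i) (st v h i) (o i)) : Nonempty (VF ω) := by
  obtain ⟨HG, mu, EG, G⟩ := exists_vg (geo_ov g) h2 (s := fun i => g.E.s (st v h i))
    (a := fun i => (ω i).l 0) (c := fun i => (ω i).l 2) (b := fun i => (ω i).r 0)
    (fun i => (ω i).win.ml two_pos) (fun i => ((ω i).win.lt 2 0).le)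
    (fun i j q => Set.disjoint_left.2 fun x a b => by
      have := Sg.s_st (v := v) (h := h) g.E.toLev q x
      have a' : (ω i).l 0 < g.E.s (st v h i) x := a
      have b' : (ω j).l 0 < g.E.s (st v h j) x := b
      linarith [wd_pos (ω i), wd_pos (ω j)])
    (𝒵 := fun i => (ω i).Z 0) (fun i U hU => Wz.zs_open hU)
    (fun i => (ω i).win.lr.sUnion_zs n.zero_le) (fun i => .inr ⟨0, le_rfl, hn, .inl rfl⟩)
    (ct := fun i => (ω i).ct) (far := fun i j => (τ i).kd j ≠ o i ∧ (τ i).sc j = 0)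
    (fun i => wd_hp_mem (ω i)) (fun i => wd_hp_nf (ω i)) (fun i => (ω i).nf'.s1)
    fun i φ => wd_span (ω i) hn
  have e : (⋂ i, lo (g.E.s (st v h i)) ((ω i).l 2)) = Ocr ω := Set.ext fun x => mem_iInter
  rw [e] at G
  refine ⟨⟨HG, mu, EG, G.cc, G.nf, G.core, G.zn, fun i f σ hσ => ?_, G.mu0, fun f a b =>
    G.zero f a fun i => ⟨b i, wd_hp_zero (ω i) hn (b i)⟩⟩⟩
  obtain ⟨⟨⟨U, hU, a⟩, b⟩, c⟩ := hσ
  have := G.agr i f U hU σ ⟨subset_inter a c, b⟩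
  rw [← this, (ω i).Hp_apply]
  simp only [add_smul, Finset.sum_add_distrib, _root_.sub_sub, add_assoc]

theorem exists_VF' [T2Space X] [ChartedSpace (EE 4) X] (hn : 0 < n)
    (ω : ∀ i, Wd g u R₀ n (τ i) (st v h i) (o i)) : Nonempty (VF ω) :=
  exists_VF (hc0 (d := 3) g.nd g.acy (by omega) (by omega)) hn ω

end Crest.Agent.N255.Le
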